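import Crest.Agent.N255.Ku.Sing
import Crest.Agent.N255.Tg.OnO

/-!
# Row 255 (helper21): universal families, substitution by periods, versality
-/

set_option autoImplicit false
open Set Function

noncomputable section

namespace Crest.Agent.N255.Ku

open Cs Cs.Tw Tp Tg _root_.N255.Dr _root_.N255.Dr.O

section abs

variable {p : ℕ} [Fact p.Prime] {K O O' : Type*} [CommRing K] [CommRing O] [Algebra K O]
  [CommRing O'] [Algebra K O'] {G : Gr (Gm p) K O} {G' : Gr (Gm p) K O'} {m : Ideal O}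
  {m' : Ideal O'} {ι : Type*}

/-- substitutions with free values on the elements `X j` -/
structure Fr (G : Gr (Gm p) K O) (m : Ideal O) {m' : Ideal O'} (hm' : G'.Id m') (X : ι → Tw G) where
  Φ : (ι → U hm') → O →ₐ[K] O'
  hom : ∀ w, G.Hom G' (Φ w)
  loc : ∀ w, ∀ x ∈ m, Φ w x ∈ m'
  val : ∀ w j, Tw.map (hom w) (X j) = (w j).1.val - 1
  lip : ∀ w w' I, G'.Id I → (∀ j, In I ((w' j).1.val - (w j).1.val)) → ∀ x, Φ w' x - Φ w x ∈ I

variable {hm' : G'.Id m'} {X : ι → Tw G} (S : Fr G m hm' X)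

/-- elements that do not depend on the free values to first order -/
def Fr.Sm (r : Tw G) : Prop := In m r ∧ ∀ w w' I, G'.Id I →
  (∀ j, In I ((w' j).1.val - (w j).1.val)) → In (m' * I) (Tw.map (S.hom w') r - Tw.map (S.hom w) r)

theorem Fr.sm_sq {r : Tw G} (h : In (m * m) r) : S.Sm r :=
  ⟨h.mono Ideal.mul_le_left, fun w w' I hI h1 => by
    change S.Φ w' (o G r) - S.Φ w (o G r) ∈ m' * I
    refine Submodule.mul_induction_on h (fun x hx y hy => ?_) fun x y hx hy => ?_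
    · have : S.Φ w' (x * y) - S.Φ w (x * y) =
          S.Φ w' y * (S.Φ w' x - S.Φ w x) + S.Φ w x * (S.Φ w' y - S.Φ w y) := by
        simp only [map_mul]; ring
      rw [this]
      exact add_mem (Ideal.mul_mem_mul (S.loc _ _ hy) (S.lip w w' I hI h1 x))
        (Ideal.mul_mem_mul (S.loc _ _ hx) (S.lip w w' I hI h1 y))
    · convert add_mem hx hy using 1
      simp only [map_add]; ring⟩

/-- **solving equations** `f j = t j` -/
theorem Fr.solve (hn : IsNilpotent m') {f : ι → Tw G} (hf : ∀ j, S.Sm (f j - X j)) {t : ι → Tw G'}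
    (ht : ∀ j, In m' (t j)) : ∃ w, ∀ j, Tw.map (S.hom w) (f j) = t j := by
  have key : ∀ w j, In m' (t j - Tw.map (S.hom w) (f j - X j)) := fun w j =>
    In.sub (ht j) (S.loc w _ (hf j).1)
  obtain ⟨w, hw⟩ := fixU hm' hn (fun w j => unU hm' hn _ (key w j)) fun w w' I hI h1 j => by
    simp only [val_unU, add_sub_add_left_eq_sub, sub_sub_sub_cancel_left]
    rw [← neg_sub]
    exact In.neg ((hf j).2 w w' I hI h1)
  refine ⟨w, fun j => ?_⟩
  have := congrArg (fun w => (w j).1.val) hw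
  simp only [val_unU, map_sub, S.val] at this
  rw [← sub_eq_zero, ← neg_eq_zero, ← sub_eq_zero.2 this]
  abel

/-- control of the solution -/
theorem Fr.ctl (hn : IsNilpotent m') {f : ι → Tw G} (hf : ∀ j, S.Sm (f j - X j)) {w w' : ι → U hm'}
    {J : Ideal O'} (hJ : G'.Id J)
    (h : ∀ j, In J (Tw.map (S.hom w') (f j) - Tw.map (S.hom w) (f j))) (j : ι) :
    In J ((w' j).1.val - (w j).1.val) := by
  obtain ⟨N, hN⟩ := hn
  refine in_of_retreat hm' hN hJ (φ := fun j => (w' j).1.val - (w j).1.val) (P := fun _ => univ)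
    (fun _ _ I hI h1 j _ => ?_) j trivial
  have := In.sub ((h j).mono (le_sup_left (b := m' * I)))
    (((hf j).2 w w' I hI fun j => h1 j trivial).mono le_sup_right)
  simp only [map_sub, S.val] at this
  convert this using 1
  abel

variable {V E T Q : Type*} (D : Ds V E T Q)

/-- **versality**: a gauge transformation and a substitution with vanishing periods -/
theorem Fr.vers (hm : G.Id m) (hn : IsNilpotent m') (h0 : (V →₀ K) →ₗ[K] E →₀ K) (z : ι → E →₀ K)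
    {g : E → (Tw G)ˣ} {g' : E → (Tw G')ˣ} (hg : ∀ e, g e ∈ U hm) (hg' : ∀ e, g' e ∈ U hm')
    (hz : ∀ j, S.Sm (Ku.ev K (Ku.dif g 1) (z j) - X j)) :
    ∃ (w : ι → U hm') (γ : V → (Tw G')ˣ), (∀ v, γ v ∈ U hm') ∧
      D.Gf h0 (fun e => um (S.hom w) (g e)) g' γ ∧
      ∀ j, Ku.ev K (D.Gl γ (fun e => um (S.hom w) (g e)) g') (z j) = 0 := by
  have hu : ∀ w e, um (S.hom w) (g e) ∈ U hm' := fun w e => um_mem _ hm hm' (S.loc w) (hg e)
  have k0 : ∀ (γ : V → U hm') j, In m' (Ku.ev K (D.Gl (fun v => (γ v).1) 1 g') (z j)) := fun γ j =>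
    ev_in (fun e _ => D.Gl_m hm' (fun _ => one_mem _) hg' (fun v => (γ v).2) e) (mem_ch_univ _)
  choose W hW using fun γ : V → U hm' => S.solve hn hz (k0 γ)
  have e1 : ∀ (γ : V → (Tw G')ˣ) w e, D.Gl γ (fun e => um (S.hom w) (g e)) g' e =
      D.Gl γ 1 g' e - Tw.map (S.hom w) (Ku.dif g 1 e) := fun γ w e => by
    simp only [Ds.Gl, Ku.dif, val_um, Pi.one_apply, Units.val_one, map_sub, map_one]; abel
  have key : ∀ (s : V → U hm') v, In m' (Ku.ev K (D.Gl (fun v => (s v).1)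
      (fun e => um (S.hom (W s)) (g e)) g') (h0 (Ku.sg K v))) :=
    fun s v => ev_in (fun e _ => D.Gl_m hm' (hu _) hg' (fun e => (s e).2) e) (mem_ch_univ _)
  obtain ⟨s, hs⟩ := fixU hm' hn (fun s v => unU hm' hn _ (key s v)) fun s s' I hI h1 v => by
    have h2 : ∀ e, In (m' * I) (D.Gl (fun v => (s' v).1) 1 g' e - D.Gl (fun v => (s v).1) 1 g' e) :=
      fun e => D.Gl_sub hm' hI hg' (fun e => (s e).2) (fun e => (s' e).2) (h1 _) (h1 _)
    have h3 := S.ctl hn hz (w := W s) (w' := W s') (hm'.mul hI) fun j => by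
      rw [hW, hW, ← Ku.ev_sub]; exact ev_in (fun e _ => h2 e) (mem_ch_univ _)
    simp only [val_unU, add_sub_add_left_eq_sub]
    rw [← Ku.ev_sub]
    refine ev_in (fun e _ => ?_) (mem_ch_univ _)
    rw [e1, e1, sub_sub_sub_comm]
    exact In.sub (h2 e) (S.lip _ _ _ (hm'.mul hI) h3 _)
  refine ⟨W s, fun v => (s v).1, fun v => (s v).2, fun v => ?_, fun j => ?_⟩
  · have := congrArg (fun s => (s v).1.val) hs
    simp only [val_unU] at this
    rw [Ku.dif, ← this]; simp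
  · rw [funext (e1 _ _), Ku.ev_sub, ev_um, hW, sub_self]

end abs

variable {p : ℕ} [Fact p.Prime] {K : Type} {σ ι : Type} {A : Type} [CommRing A]

section ring

variable [CommRing K] [Algebra K A] {GO : Gr (Gm p) K (O p K σ)} {G : Gr (Gm p) K A} {d : σ → Gm p}
  {m : Ideal A} {e : ι × Gm p → σ}

/-- the generic element in the variables `e (j, γ)` -/
def XX (GO : Gr (Gm p) K (O p K σ)) (e : ι × Gm p → σ) (j : ι) : Tw GO := up GO (∑ γ, z (e (j, γ)))

theorem XX_in (j : ι) : In mx (XX GO e j) := sum_mem fun _ _ => z_mem _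

theorem pr_XX (hO : ∀ i, GO.Hg (d i) (z i)) (hd : ∀ q, d (e q) = q.2) (j : ι) (γ : Gm p) :
    GO.pr γ (o GO (XX GO e j)) = z (e (j, γ)) := by
  change GO.pr γ (∑ γ, z (e (j, γ))) = _
  rw [map_sum, Finset.sum_eq_single γ (fun c _ hc => (hO _).ne (by rw [hd]; exact hc.symm)) (by simp)]
  exact (hO _).cast (hd _)

omit [Fact p.Prime] in
theorem sub_mem_of_z (φ ψ : O p K σ →ₐ[K] A) {I : Ideal A} (h : ∀ u, ψ (z u) - φ (z u) ∈ I)
    (x : O p K σ) : ψ x - φ x ∈ I := by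
  have : (Ideal.Quotient.mkₐ K I).comp ψ = (Ideal.Quotient.mkₐ K I).comp φ :=
    hom_ext fun u => Ideal.Quotient.eq.2 (h u)
  exact Ideal.Quotient.eq.1 (AlgHom.congr_fun this x)

variable [Fintype σ]

/-- the values on `XX j` are free, the other variables follow `φ` -/
def frO (hm : G.Id m) (hp : ∀ x ∈ m, x ^ p = 0) (hO : ∀ i, GO.Hg (d i) (z i))
    (hd : ∀ q, d (e q) = q.2) (he : Injective e) (φ : O p K σ →ₐ[K] A)
    (hφ : ∀ u, G.Hg (d u) (φ (z u)) ∧ φ (z u) ∈ m) : Fr GO mx hm (XX GO e) :=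
  have hu : ∀ (w : ι → U hm) u, G.Hg (d u) (upd hp e φ (fun q => G.pr q.2 (o G ((w q.1).1.val - 1)))
      (fun q => hm _ _ (w q.1).2) (z u)) ∧ upd hp e φ (fun q => G.pr q.2 (o G ((w q.1).1.val - 1)))
      (fun q => hm _ _ (w q.1).2) (z u) ∈ m := fun w u => by
    by_cases h : u ∈ range e
    · obtain ⟨q, rfl⟩ := h
      rw [upd_e hp he, hd]; exact ⟨G.hg_pr _ _, hm _ _ (w q.1).2⟩
    · rw [upd_not hp e φ _ _ h]; exact hφ u
  { Φ w := upd hp e φ (fun q => G.pr q.2 (o G ((w q.1).1.val - 1))) fun q => hm _ _ (w q.1).2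
    hom w := hom_of_z hO fun u => (hu w u).1
    loc w _ hx := map_mx _ (fun u => (hu w u).2) hx
    val w j := (o G).injective (by
      rw [o_map]
      change upd hp e φ _ _ (∑ γ, z (e (j, γ))) = _
      simp only [map_sum, upd_e hp he]
      exact G.sum _)
    lip w w' I hI h := sub_mem_of_z _ _ fun u => by
      by_cases h1 : u ∈ range e
      · obtain ⟨q, rfl⟩ := h1
        rw [upd_e hp he, upd_e hp he, ← map_sub, ← map_sub, sub_sub_sub_cancel_right]
        exact hI _ _ (h q.1)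
      · rw [upd_not hp e φ _ _ h1, upd_not hp e φ _ _ h1, sub_self]; exact zero_mem _ }

/-- the ideal of the frozen variables -/
def fz (K : Type) [CommRing K] (p : ℕ) (e : ι × Gm p → σ) : Ideal (O p K σ) :=
  Ideal.span (z '' (range e)ᶜ)

variable {hm : G.Id m} {hp : ∀ x ∈ m, x ^ p = 0} {hO : ∀ i, GO.Hg (d i) (z i)}
  {hd : ∀ q, d (e q) = q.2} {he : Injective e} {φ : O p K σ →ₐ[K] A}
  {hφ : ∀ u, G.Hg (d u) (φ (z u)) ∧ φ (z u) ∈ m}

theorem frO_not (w : ι → U hm) {u : σ} (hu : u ∉ range e) :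
    (frO hm hp hO hd he φ hφ).Φ w (z u) = φ (z u) := upd_not hp e φ _ (fun q => hm _ _ (w q.1).2) hu

theorem frO_z (w : ι → U hm) (u : σ) : G.Hg (d u) ((frO hm hp hO hd he φ hφ).Φ w (z u)) ∧
    (frO hm hp hO hd he φ hφ).Φ w (z u) ∈ m :=
  ⟨((frO hm hp hO hd he φ hφ).hom w).hg (hO u), (frO hm hp hO hd he φ hφ).loc w _ (z_mem u)⟩

theorem frO_sm {r : Tw GO} (h : In (mx * mx ⊔ fz K p e) r) : (frO hm hp hO hd he φ hφ).Sm r := by
  set S := frO hm hp hO hd he φ hφ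
  have hz : fz K p e ≤ mx := Ideal.span_le.2 (by rintro _ ⟨u, -, rfl⟩; exact z_mem u)
  refine ⟨h.mono (sup_le Ideal.mul_le_left hz), fun w w' I hI h1 => ?_⟩
  obtain ⟨a, ha, b, hb, e1⟩ := Submodule.mem_sup.1 h
  have h2 : S.Φ w' a - S.Φ w a ∈ m * I := (S.sm_sq (r := up GO a) ha).2 w w' I hI h1
  have h3 : ∀ c, S.Φ w' (c * b) - S.Φ w (c * b) ∈ m * I := by
    clear e1
    induction hb using Submodule.span_induction with
    | mem x hx =>
      obtain ⟨u, hu, rfl⟩ := hx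
      intro c
      rw [map_mul, map_mul, frO_not w hu, frO_not w' hu, ← sub_mul, mul_comm _ (φ _)]
      exact Ideal.mul_mem_mul (hφ u).2 (S.lip w w' I hI h1 c)
    | zero => simp
    | add x y _ _ hx hy =>
      intro c
      convert add_mem (hx c) (hy c) using 1
      simp only [mul_add, map_add]; ring
    | smul a x _ hx => intro c; rw [smul_eq_mul, ← mul_assoc]; exact hx _
  change S.Φ w' (o GO r) - S.Φ w (o GO r) ∈ m * I
  convert add_mem h2 (h3 1) using 1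
  simp only [← e1, map_add, one_mul]; ring

/-- **solving for the variables `e`**: `ψ (f j) = t j`, the other variables are frozen -/
theorem solve_O (hm : G.Id m) (hn : IsNilpotent m) (hp : ∀ x ∈ m, x ^ p = 0)
    (hO : ∀ i, GO.Hg (d i) (z i)) (hd : ∀ q, d (e q) = q.2) (he : Injective e) (φ : O p K σ →ₐ[K] A)
    (hφ : ∀ u, G.Hg (d u) (φ (z u)) ∧ φ (z u) ∈ m) {f : ι → Tw GO}
    (hf : ∀ j, In (mx * mx ⊔ fz K p e) (f j - XX GO e j)) {t : ι → Tw G} (ht : ∀ j, In m (t j)) :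
    ∃ ψ : O p K σ →ₐ[K] A, (∀ u, G.Hg (d u) (ψ (z u)) ∧ ψ (z u) ∈ m) ∧
      (∀ u, u ∉ range e → ψ (z u) = φ (z u)) ∧ (∀ j, ψ (o GO (f j)) = o G (t j)) ∧
      ∀ J, G.Id J → (∀ j, φ (o GO (f j)) - o G (t j) ∈ J) → ∀ x, ψ x - φ x ∈ J := by
  set S := frO hm hp hO hd he φ hφ
  obtain ⟨w, hw⟩ := S.solve hn (fun j => frO_sm (hf j)) ht
  have hφ' : GO.Hom G φ := hom_of_z hO fun u => (hφ u).1
  let w0 : ι → U hm := fun j => unU hm hn (Tw.map hφ' (XX GO e j))
    (map_mx φ (fun u => (hφ u).2) (XX_in (GO := GO) j))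
  have e0 : S.Φ w0 = φ := hom_ext fun u => by
    by_cases h1 : u ∈ range e
    · obtain ⟨q, rfl⟩ := h1
      refine (upd_e hp he φ _ (fun q => hm _ _ (w0 q.1).2) q).trans ?_
      change G.pr q.2 (o G (1 + Tw.map hφ' (XX GO e q.1) - 1)) = _
      rw [add_sub_cancel_left, o_map, ← hφ', pr_XX hO hd]
    · exact frO_not w0 h1
  refine ⟨S.Φ w, frO_z w, fun u => frO_not w, fun j => congrArg (o G) (hw j), fun J hJ h x => ?_⟩
  rw [← e0]
  refine S.lip w0 w J hJ (S.ctl hn (fun j => frO_sm (hf j)) hJ fun j => ?_) x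
  rw [hw, ← neg_sub]
  refine In.neg ?_
  change S.Φ w0 (o GO (f j)) - o G (t j) ∈ J
  rw [e0]; exact h j

variable {X : Type} [TopologicalSpace X] [Fintype ι]

/-- add free directions `x j` to a connection -/
def shf (hO : ∀ i, GO.Hg (d i) (z i)) (e : ι × Gm p → σ) (x : ι → Co K 1 X) (g : Cn GO X)
    (hg : ∀ s, g s ∈ U (id_mx hO)) : Cn GO X := fun s =>
  un (id_mx hO) mx_nil ((g s).val - 1 + ∑ j, x j s • XX GO e j)
    (In.add (hg s) ((inS GO mx).sum_mem fun j _ => in_smul _ (XX_in j)))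

variable {x : ι → Co K 1 X} {g : Cn GO X} {hg : ∀ s, g s ∈ U (id_mx hO)}

theorem shf_U (s : Sx 1 X) : shf hO e x g hg s ∈ U (id_mx hO) :=
  un_mem _ _ _ _ _ (In.add (hg s) ((inS GO mx).sum_mem fun j _ => in_smul _ (XX_in j)))

theorem dif_shf (s : Sx 1 X) : Cs.dif (shf hO e x g hg) g s = ∑ j, x j s • XX GO e j := by
  simp only [Cs.dif, shf, val_un]; abel

theorem ev_dif_shf (c : Ch K 1 X) :
    Tp.ev K (Cs.dif (shf hO e x g hg) g) c = ∑ j, Tp.ev K (x j) c • XX GO e j :=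
  ev_ext (g := ∑ j, (LinearMap.toSpanSingleton K _ (XX GO e j)) ∘ₗ Tp.ev K (x j))
    (fun s => by rw [Tp.ev_sg, dif_shf]; simp [LinearMap.sum_apply]) c |>.trans
      (by simp [LinearMap.sum_apply])

/-- the curvature after a shift, modulo `mx * J` where `J` contains the new variables -/
theorem cur_shf {J : Ideal (O p K σ)} (hJ : GO.Id J) (h : ∀ j, In J (XX GO e j)) (s : Sx 2 X) :
    In (mx * J) (cur (shf hO e x g hg) s - cur g s - ∑ j, cob K (x j) s • XX GO e j) := by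
  have h1 : ∀ s, In J (Ku.dif (shf hO e x g hg) g s) := fun s => by
    rw [dif_eq, dif_shf]; exact (inS GO J).sum_mem fun j _ => in_smul _ (h j)
  have := (sD X).F_sub_in (id_mx hO) hJ hg shf_U (x := s) (h1 _) (h1 _)
  rwa [sD_d1 K, dif_eq, ← Tp.ev_sg (k := K) (cob K _), ← ev_bd, ev_dif_shf,
    show (∑ j, Tp.ev K (x j) (bd K (Tp.sg K s)) • XX GO e j) = ∑ j, cob K (x j) s • XX GO e j from
      Finset.sum_congr rfl fun j _ => by rw [ev_bd, Tp.ev_sg]] at this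

end ring

variable [Field K] [Algebra K A] {GO : Gr (Gm p) K (O p K σ)} {G : Gr (Gm p) K A} {d : σ → Gm p}
  {m : Ideal A} {e : ι × Gm p → σ} [Fintype σ] {X : Type} [TopologicalSpace X]

/-- **versality**: after a gauge transformation (trivial on `N0`) and a substitution of the variables
`e` the difference has no periods on `c j` and only sees cycles relative to `N0` -/
theorem vers_O (hm : G.Id m) (hn : IsNilpotent m) (hp : ∀ x ∈ m, x ^ p = 0)
    (hO : ∀ i, GO.Hg (d i) (z i)) (hd : ∀ q, d (e q) = q.2) (he : Injective e) (φ : O p K σ →ₐ[K] A)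
    (hφ : ∀ u, G.Hg (d u) (φ (z u)) ∧ φ (z u) ∈ m) (N0 : Submodule K (Ch K 0 X)) {P : ℕ → Sb X}
    (hP : ∀ i, (P i).Le (P (i + 1))) (n : ℕ) {g : Cn GO X} {g' : Cn G X}
    (hg : ∀ s, g s ∈ U (id_mx hO)) (hg' : ∀ s, g' s ∈ U hm) {c : ι → Ch K 1 X}
    (hc : ∀ j, bd K (c j) ∈ N0)
    (hz : ∀ j, In (mx * mx ⊔ fz K p e) (Tp.ev K (Cs.dif g 1) (c j) - XX GO e j)) :
    ∃ (ψ : O p K σ →ₐ[K] A) (hψ : GO.Hom G ψ) (γ : Sx 0 X → (Tw G)ˣ), (∀ u, ψ (z u) ∈ m) ∧
      (∀ u, u ∉ range e → ψ (z u) = φ (z u)) ∧ (∀ v, γ v ∈ U hm) ∧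
      (∀ v, Tp.sg K v ∈ N0 → γ v = 1) ∧
      (∀ j, Tp.ev K (Cs.dif (gag γ g') (mp hψ g)) (c j) = 0) ∧
      ∀ i ≤ n, RC N0 (P i) (Cs.dif (gag γ g') (mp hψ g)) := by
  obtain ⟨h, k⟩ := exists_ctr N0 hP n
  set S := frO hm hp hO hd he φ hφ
  obtain ⟨w, γ, h1, h2, h3⟩ := S.vers (sD X) (id_mx hO) hn h c hg hg' fun j => frO_sm (hz j)
  refine ⟨S.Φ w, S.hom w, γ, fun u => (frO_z w u).2, fun u => frO_not w, h1,
    fun v hv => h2.eq (k.zero _ hv), fun j => ?_, fun i hi x hx =>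
      ⟨_, sub_mem hx (k.inv i hi x hx).1, (k.inv i hi x hx).2, k.per h2 hi hx⟩⟩
  have := h3 j
  rwa [Ds.ev_Gl, sD_b1, h2.zero (k.zero _ (hc j)), add_zero] at this

end Crest.Agent.N255.Ku

end
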