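import Crest.Agent.N255.Ku.Co

/-!
# Row 255 (helper21): cochain side Kuranishi theory, singular simplices and monomialwise form
-/

set_option autoImplicit false
open Set Module

noncomputable section

namespace Crest.Agent.N255.Ku

open Cs Cs.Tw Tp Tg _root_.N255.Dr _root_.N255.Dr.O

section sing

variable {p : ℕ} [Fact p.Prime] {K O : Type} [Field K] [CommRing O] [Algebra K O]
  {G : Gr (Gm p) K O} {m I J : Ideal O} {X : Type} [TopologicalSpace X] {P P' : Sb X} {n : ℕ}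
  {g g' : Cn G X} {hm : G.Id m}

/-- `l` kills the ideal `J` -/
def Kl (l : Dual K (Tw G)) (J : Ideal O) : Prop := ∀ x, In J x → l x = 0

theorem Kl.mono {l : Dual K (Tw G)} (h : Kl l J) (hI : I ≤ J) : Kl l I := fun x hx => h x (hI hx)

/-- the scalar cochain `l ∘ φ` -/
abbrev lc (l : Dual K (Tw G)) (φ : Co (Tw G) n X) : Co K n X := fun σ => l (φ σ)

theorem cob_lc (l : Dual K (Tw G)) (φ : Co (Tw G) n X) : cob K (lc l φ) = lc l (cob K φ) :=
  funext fun σ => cob_map l φ σ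

theorem ev_lc (l : Dual K (Tw G)) (φ : Co (Tw G) n X) (c : Ch K n X) :
    Tp.ev K (lc l φ) c = l (Tp.ev K φ c) := (map_ev l φ c).symm

theorem ci_iff {φ : Co (Tw G) n X} : CI P J φ ↔ ∀ l, Kl l J → lc l φ ∈ P.van K K n :=
  (ov_vn (K := K) (N := inS G J)).symm

theorem vn_eq (P : Sb X) (n : ℕ) : vn K (P.S n) = P.van K K n := rfl

/-- Bianchi -/
theorem lc_cur_Z (hI : G.Id I) (h : CU P hm g) (f : CI P I (cur g)) {l : Dual K (Tw G)}
    (hl : Kl l (m * I)) : lc l (cur g) ∈ P.Z K K 2 := by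
  rw [Sb.mem_Z, cob_lc]; exact ci_iff.1 (cob_cur_mem hI h f) l hl

/-- the coboundary of a difference of connections -/
theorem cob_dif_mem (hI : G.Id I) (h : CU P hm g) (h' : CU P hm g') (f : CI P I (Cs.dif g' g)) :
    CI P (m * I) (cur g' - cur g - cob K (Cs.dif g' g)) := fun x hx => by
  have := (sD X).F_sub g' g x
  rw [sD_d1 K] at this
  change In _ ((sD X).F g' x - (sD X).F g x - cob K (Ku.dif g' g) x)
  rw [this]
  exact In.add (in_rm hm hI (h'.gs hx 1 2) (f.df hx 0 1))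
    (in_lm hm hI (h.gs hx 0 1) (f.df hx 1 2))

theorem lc_dif_Z (hI : G.Id I) (h : CU P hm g) (h' : CU P hm g') (f : CI P I (Cs.dif g' g))
    (hF : CI P J (cur g' - cur g)) {l : Dual K (Tw G)} (hl : Kl l (J ⊔ m * I)) :
    lc l (Cs.dif g' g) ∈ P.Z K K 1 := by
  rw [Sb.mem_Z, cob_lc]
  refine fun x hx => hl _ ?_
  rw [← sub_sub_cancel ((cur g' - cur g) x) (cob K (Cs.dif g' g) x)]
  exact In.sub ((hF x hx).mono le_sup_left) ((cob_dif_mem hI h h' f x hx).mono le_sup_right)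

/-- one retreat for the curvature, cochain side -/
theorem cur_step_co (hI : G.Id I) (h : CU P' hm g) (f : CI P' I (cur g))
    (H : ∀ l, Kl l J → lc l (cur g) ∈ P'.Z K K 2 → lc l (cur g) ∈ P.van K K 2) :
    CI P (J ⊔ m * I) (cur g) :=
  ci_iff.2 fun l hl => H l (hl.mono le_sup_left) (lc_cur_Z hI h f (hl.mono le_sup_right))

/-- one retreat for a difference, cochain side -/
theorem dif_step_co (hI : G.Id I) (h : CU P' hm g) (h' : CU P' hm g') (f : CI P' I (Cs.dif g' g))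
    (hF : CI P' J (cur g' - cur g))
    (H : ∀ l, Kl l J → lc l (Cs.dif g' g) ∈ P'.Z K K 1 → lc l (Cs.dif g' g) ∈ P.van K K 1) :
    CI P (J ⊔ m * I) (Cs.dif g' g) :=
  ci_iff.2 fun l hl => H l (hl.mono le_sup_left) (lc_dif_Z hI h h' f hF hl)

/-- contraction data on cochains: primitives in `C`, equations modulo `N` -/
structure Cc0 (N : Submodule K (Co K (n + 1) X)) (C : Submodule K (Co K n X))
    (H : Co K (n + 1) X →ₗ[K] Co K n X) : Prop where
  zero : ∀ y ∈ N, H y = 0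
  mem : ∀ y, H y ∈ C
  inv : ∀ c ∈ C, cob K (c - H (cob K c)) ∈ N
  idem : ∀ y, H (cob K (H y)) = H y

theorem exists_cc0 (N : Submodule K (Co K (n + 1) X)) (C : Submodule K (Co K n X)) :
    ∃ H, Cc0 N C H := by
  obtain ⟨H, h1, h2, h3, h4, -⟩ := exists_h1 (cob K) N C
  exact ⟨H, h1, h2, h3, h4⟩

/-- normalised and exact implies zero -/
theorem Cc0.norm {N : Submodule K (Co K (n + 1) X)} {C : Submodule K (Co K n X)}
    {H : Co K (n + 1) X →ₗ[K] Co K n X} (c : Cc0 N C H) {q : Co K (n + 1) X} (hq : H q = 0)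
    {θ : Co K n X} (hθ : θ ∈ C) (e : q - cob K θ ∈ N) : q ∈ N := by
  have h1 := c.zero _ e
  rw [map_sub, hq, zero_sub, neg_eq_zero] at h1
  have h2 := c.inv θ hθ
  rw [h1, sub_zero] at h2
  simpa using add_mem e h2

variable [Module.Finite K O]

theorem Ds.Kc.cur {H : Co K 2 X →ₗ[K] Co K 1 X} (k : (sD X).Kc H g g')
    (hH : ∀ y, H (cob K (H y)) = H y) (l : Dual K (Tw G)) : H (lc l (cur g')) = 0 :=
  k.H_cur (fun y => by rw [sD_d1 K]; exact hH y) l

theorem Ds.Gc.dif {H : Co K 1 X →ₗ[K] Co K 0 X} {γ : Sx 0 X → (Tw G)ˣ} (k : (sD X).Gc H g g' γ)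
    (hH : ∀ y, H (cob K (H y)) = H y) (l : Dual K (Tw G)) : H (lc l (Cs.dif (gag γ g') g)) = 0 :=
  k.H_dif (fun y => by rw [sD_d0 K]; exact hH y) l

/-- **Kuranishi, cochain side**: the correction lies in `C ⊗ m`; a component of the curvature that is
exact on `P` with a primitive in `C` vanishes on `P` -/
theorem kur_co (hm : G.Id m) (hn : IsNilpotent m) (P : Sb X) (C : Submodule K (Co K 1 X))
    (hg : ∀ σ, g σ ∈ U hm) : ∃ g' : Cn G X, (∀ σ, g' σ ∈ U hm) ∧ (∀ l, lc l (Cs.dif g' g) ∈ C) ∧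
      (∀ J, G.Id J → CI P J (cur g) → ∀ σ, In J (Cs.dif g' g σ)) ∧
      ∀ l, ∀ θ ∈ C, lc l (cur g') - cob K θ ∈ P.van K K 2 → lc l (cur g') ∈ P.van K K 2 := by
  obtain ⟨H, c⟩ := exists_cc0 (P.van K K 2) C
  obtain ⟨g', h1, k⟩ := (sD X).kc_ex hm hn H hg
  exact ⟨g', h1, fun l => k.ov_range c.mem ⊥ l (by simp),
    fun J hJ f => k.dif_in1 hm hn hJ hg h1 f c.zero, fun l θ hθ => c.norm (k.cur c.idem l) hθ⟩

/-- **gauge fixing, cochain side** -/
theorem gfix_co (hm : G.Id m) (hn : IsNilpotent m) (P : Sb X) (C : Submodule K (Co K 0 X))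
    (hg : ∀ σ, g σ ∈ U hm) (hg' : ∀ σ, g' σ ∈ U hm) :
    ∃ γ : Sx 0 X → (Tw G)ˣ, (∀ v, γ v ∈ U hm) ∧ (∀ l, lc l (fun v => (γ v).val - 1) ∈ C) ∧
      ∀ l, ∀ θ ∈ C, lc l (Cs.dif (gag γ g') g) - cob K θ ∈ P.van K K 1 →
        lc l (Cs.dif (gag γ g') g) ∈ P.van K K 1 := by
  obtain ⟨H, c⟩ := exists_cc0 (P.van K K 1) C
  obtain ⟨γ, h1, k⟩ := (sD X).gc_ex hm hn H hg hg'
  exact ⟨γ, h1, fun l => k.ov (C := ⊤) (fun q _ => c.mem q) (N := ⊥) (fun _ _ => trivial) l (by simp),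
    fun l θ hθ => c.norm (k.dif c.idem l) hθ⟩

end sing

variable {p : ℕ} [Fact p.Prime] {K σ : Type} [Fintype σ] [CommRing K] {G : Gr (Gm p) K (O p K σ)}

open Classical in
/-- the element with given coefficients -/
def ofc (G : Gr (Gm p) K (O p K σ)) (x : (σ → ℕ) → K) : Tw G := up G (∑ a ∈ box p σ, x a • zm a)

theorem ct_ofc (x : (σ → ℕ) → K) {a : σ → ℕ} (h : ∀ i, a i < p) : ct G a (ofc G x) = x a := by
  classical
  change cf a (∑ a ∈ box p σ, x a • zm a) = _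
  simp only [map_sum, map_smul, cf_zm, smul_eq_mul, mul_ite, mul_one, mul_zero]
  rw [Finset.sum_eq_single a (fun b _ hb => if_neg fun e => hb e.1.symm)
    fun h1 => absurd (by convert mem_box.2 h) h1, if_pos ⟨rfl, h⟩]

theorem ct_of_not {a : σ → ℕ} (h : ¬ ∀ i, a i < p) (x : Tw G) : ct G a x = 0 := cf_of_not h _

/-- coefficientwise fixed points -/
theorem fix_cf {S S' : Type*} (hm : G.Id mx) (H : (σ → ℕ) → (S' → K) →ₗ[K] S → K) (b : S → Tw G)
    (hb : ∀ i, In mx (b i)) (Ψ : (S → U hm) → S' → Tw G) (h1 : ∀ s i, In mx (Ψ s i))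
    (h2 : ∀ s s' I, G.Id I → (∀ i, In I ((s' i).1.val - (s i).1.val)) →
      ∀ i, In (mx * I) (Ψ s' i - Ψ s i)) :
    ∃ s : S → U hm, ∀ i a, ct G a ((s i).1.val - 1 - b i) = H a (fun x => ct G a (Ψ s x)) i := by
  have k0 : ∀ (k : ℕ) (f : S' → Tw G), (∀ x, In (mx ^ k) (f x)) → ∀ i,
      In (mx ^ k) (ofc G fun a => H a (fun x => ct G a (f x)) i) := fun k f hf i =>
    in_pow_iff.2 fun a ha => by
      by_cases h : ∀ i, a i < p
      · rw [ct_ofc _ h, show (fun x => ct G a (f x)) = 0 from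
          funext fun x => in_pow_iff.1 (hf x) a ha, map_zero, Pi.zero_apply]
      · exact ct_of_not h _
  have key : ∀ s i, In mx (b i + ofc G fun a => H a (fun x => ct G a (Ψ s x)) i) := fun s i =>
    In.add (hb i) (by simpa only [pow_one] using k0 1 _ (fun x => by simpa only [pow_one] using h1 s x) i)
  obtain ⟨s, hs⟩ := fixP hm mx_nil (fun s i => unU hm mx_nil _ (key s i)) fun s s' k h i => by
    simp only [val_unU, add_sub_add_left_eq_sub]
    convert k0 (k + 1) _ (fun x => by rw [pow_succ']; exact h2 s s' _ (hm.pow k) h x) i using 1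
    refine ct_ext fun a => ?_
    by_cases h : ∀ i, a i < p
    · simp only [map_sub, ct_ofc _ h]
      exact (congrFun (map_sub (H a) _ _) i).symm
    · simp only [ct_of_not h]
  refine ⟨s, fun i a => ?_⟩
  by_cases h : ∀ i, a i < p
  · have := congrArg (fun s => (s i).1.val) hs
    simp only [val_unU] at this
    rw [← this, add_sub_cancel_left, add_sub_cancel_left, ct_ofc _ h]
  · simp only [ct_of_not h]
    exact (congrFun (map_zero (H a)) i).symm

namespace Ds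

variable {V E T Q : Type*} (D : Ds V E T Q) {g g' g'' : E → (Tw G)ˣ}

/-- Kuranishi correction, cochain side, one contraction per monomial -/
def Kd (H : (σ → ℕ) → (T → K) →ₗ[K] E → K) (g g' : E → (Tw G)ˣ) : Prop :=
  ∀ a, (fun e => ct G a (Ku.dif g' g e)) = -H a fun x => ct G a (D.Nl g g' x)

theorem kd_ex (hm : G.Id mx) (H : (σ → ℕ) → (T → K) →ₗ[K] E → K) (hg : ∀ e, g e ∈ U hm) :
    ∃ g' : E → (Tw G)ˣ, (∀ e, g' e ∈ U hm) ∧ D.Kd H g g' := by
  obtain ⟨s, hs⟩ := fix_cf hm (fun a => -H a) (fun e => (g e).val - 1) hg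
    (fun s => D.Nl g fun e => (s e).1) (fun s => D.Nl_m hm hg fun e => (s e).2)
    fun s s' I hI h x => D.Nl_sub hm hI (fun e => (s e).2) (fun e => (s' e).2) (h _) (h _)
  exact ⟨fun e => (s e).1, fun e => (s e).2, fun a => funext fun e => by
    have := hs e a
    rw [sub_sub_sub_cancel_right] at this; exact this⟩

variable {D} {H : (σ → ℕ) → (T → K) →ₗ[K] E → K}

theorem Kd.curv (k : D.Kd H g g') (a : σ → ℕ) : (fun x => ct G a (D.F g' x)) =
    (fun x => ct G a (D.Nl g g' x)) - D.d1 (H a fun x => ct G a (D.Nl g g' x)) := by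
  funext x
  have := fun e => congrFun (k a) e
  simp only [Pi.neg_apply] at this
  simp only [d1, Pi.sub_apply, ← neg_eq_iff_eq_neg.2 (this _)]
  simp only [Nl, d1, map_sub, map_add]; ring

/-- **normal form** -/
theorem Kd.H_cur (k : D.Kd H g g') {a : σ → ℕ} (hH : ∀ y, H a (D.d1 (H a y)) = H a y) :
    H a (fun x => ct G a (D.F g' x)) = 0 := by rw [k.curv, map_sub, hH, sub_self]

/-- comparison with a third connection -/
theorem Kd.cmp (k : D.Kd H g g') (g0 : E → (Tw G)ˣ) (a : σ → ℕ) :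
    (fun e => ct G a (Ku.dif g' g e)) = -H a (fun x => ct G a (D.F g0 x))
      - H a (D.d1 fun e => ct G a (Ku.dif g g0 e))
      - H a fun x => ct G a (D.Nl g0 g' x - D.F g0 x) := by
  rw [k a, ← map_neg, ← map_neg, ← map_sub, ← map_sub]
  congr 1
  funext x
  simp only [Nl, d1, Ku.dif, map_sub, map_add, Pi.sub_apply, Pi.neg_apply]; ring

variable (D)

/-- gauge fixing, cochain side, one contraction per monomial -/
def Gd (H0 : (σ → ℕ) → (E → K) →ₗ[K] V → K) (g g' : E → (Tw G)ˣ) (γ : V → (Tw G)ˣ) : Prop :=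
  ∀ a, (fun v => ct G a (Ku.dif γ 1 v)) = H0 a fun e => ct G a (D.Gl γ g g' e)

theorem gd_ex (hm : G.Id mx) (H0 : (σ → ℕ) → (E → K) →ₗ[K] V → K) (hg : ∀ e, g e ∈ U hm)
    (hg' : ∀ e, g' e ∈ U hm) : ∃ γ : V → (Tw G)ˣ, (∀ v, γ v ∈ U hm) ∧ D.Gd H0 g g' γ := by
  obtain ⟨s, hs⟩ := fix_cf hm H0 (fun _ => 0) (fun _ => in_zero)
    (fun s => D.Gl (fun v => (s v).1) g g') (fun s => D.Gl_m hm hg hg' fun e => (s e).2)
    fun s s' I hI h x => D.Gl_sub hm hI hg' (fun e => (s e).2) (fun e => (s' e).2) (h _) (h _)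
  exact ⟨fun v => (s v).1, fun v => (s v).2, fun a => funext fun v => by
    have := hs v a
    rw [sub_zero] at this; exact this⟩

variable {D}

theorem Gd.per {H0 : (σ → ℕ) → (E → K) →ₗ[K] V → K} {γ : V → (Tw G)ˣ} (k : D.Gd H0 g g' γ)
    (a : σ → ℕ) : (fun e => ct G a (Ku.dif (D.ga γ g') g e)) =
      (fun e => ct G a (D.Gl γ g g' e)) - D.d0 (H0 a fun e => ct G a (D.Gl γ g g' e)) := by
  rw [← k a]
  funext x
  simp only [Gl, d0, map_add, map_sub, Pi.sub_apply]; ring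

end Ds

end Crest.Agent.N255.Ku

end
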