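import Crest.Agent.N255.Ku.Lin
import Crest.Agent.N255.Cs.Mem

/-!
# Row 255 (helper21): off-shell connections on a truncated Δ-set, Kuranishi families, gauge fixing
-/

set_option autoImplicit false
open Set

noncomputable section

namespace Crest.Agent.N255.Ku

open Cs Cs.Tw

/-- vertices, edges, triangles, tetrahedra -/
structure Ds (V E T Q : Type*) where
  s : E → V
  t : E → V
  a : T → E
  b : T → E
  c : T → E
  f0 : Q → T
  f1 : Q → T
  f2 : Q → T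
  f3 : Q → T
  sa : ∀ x, s (a x) = s (c x)
  ta : ∀ x, t (a x) = s (b x)
  tb : ∀ x, t (b x) = t (c x)
  e01 : ∀ q, a (f2 q) = a (f3 q)
  e12 : ∀ q, a (f0 q) = b (f3 q)
  e02 : ∀ q, a (f1 q) = c (f3 q)
  e23 : ∀ q, b (f1 q) = b (f0 q)
  e13 : ∀ q, b (f2 q) = c (f0 q)
  e03 : ∀ q, c (f2 q) = c (f1 q)

section gen

variable (K : Type*) [CommRing K] {S S' M M' : Type*} [AddCommGroup M] [Module K M]
  [AddCommGroup M'] [Module K M']

/-- evaluation of cochains on chains -/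
abbrev ev (φ : S → M) : (S →₀ K) →ₗ[K] M := Finsupp.linearCombination K φ

/-- a simplex as a chain -/
abbrev sg (x : S) : S →₀ K := Finsupp.single x 1

/-- chains in `P` -/
abbrev ch (P : Set S) : Submodule K (S →₀ K) := Finsupp.supported K K P

variable {K}

theorem ev_sg (φ : S → M) (x : S) : ev K φ (sg K x) = φ x := by simp

theorem ev_ext {f g : (S →₀ K) →ₗ[K] M} (h : ∀ x, f (sg K x) = g (sg K x)) (c : S →₀ K) :
    f c = g c :=
  LinearMap.congr_fun (Finsupp.lhom_ext' fun x => LinearMap.ext_ring (h x)) c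

theorem ev_lin (f : (S →₀ K) →ₗ[K] M) (c : S →₀ K) : ev K (fun x => f (sg K x)) c = f c :=
  ev_ext (fun x => ev_sg _ x) c

theorem ev_sub (φ ψ : S → M) (c : S →₀ K) : ev K (fun x => φ x - ψ x) c = ev K φ c - ev K ψ c :=
  ev_ext (g := ev K φ - ev K ψ) (fun x => by simp) c

theorem ev_add (φ ψ : S → M) (c : S →₀ K) : ev K (fun x => φ x + ψ x) c = ev K φ c + ev K ψ c :=
  ev_ext (g := ev K φ + ev K ψ) (fun x => by simp) c

theorem ev_map (f : M →ₗ[K] M') (φ : S → M) (c : S →₀ K) :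
    ev K (fun x => f (φ x)) c = f (ev K φ c) :=
  ev_ext (g := f ∘ₗ ev K φ) (fun x => by simp) c

theorem ev_mem {N : Submodule K M} {P : Set S} {φ : S → M} (h : ∀ x ∈ P, φ x ∈ N) {c : S →₀ K}
    (hc : c ∈ ch K P) : ev K φ c ∈ N := by
  rw [Finsupp.linearCombination_apply]
  exact sum_mem fun x hx => N.smul_mem _ (h x (hc hx))

theorem ev_congr {P : Set S} {φ ψ : S → M} (h : ∀ x ∈ P, φ x = ψ x) {c : S →₀ K}
    (hc : c ∈ ch K P) : ev K φ c = ev K ψ c := by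
  rw [← sub_eq_zero, ← ev_sub]
  exact ev_mem (N := ⊥) (fun x hx => by simp [h x hx]) hc

theorem sg_mem {P : Set S} {x : S} (h : x ∈ P) : sg K x ∈ ch K P :=
  Finsupp.single_mem_supported K 1 h

theorem mem_ch_univ (c : S →₀ K) : c ∈ ch K (univ : Set S) := subset_univ _

end gen

namespace Ds

variable {V E T Q : Type*} (D : Ds V E T Q) (K : Type*) [CommRing K]

/-- boundary of edges -/
def b1 : (E →₀ K) →ₗ[K] V →₀ K := ev K fun e => sg K (D.t e) - sg K (D.s e)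

/-- boundary of triangles -/
def b2 : (T →₀ K) →ₗ[K] E →₀ K := ev K fun x => sg K (D.b x) - sg K (D.c x) + sg K (D.a x)

/-- boundary of tetrahedra -/
def b3 : (Q →₀ K) →ₗ[K] T →₀ K :=
  ev K fun q => sg K (D.f0 q) - sg K (D.f1 q) + sg K (D.f2 q) - sg K (D.f3 q)

variable {K} {M : Type*} [AddCommGroup M]

/-- coboundaries -/
def d0 (φ : V → M) (e : E) : M := φ (D.t e) - φ (D.s e)

/-- coboundaries -/
def d1 (φ : E → M) (x : T) : M := φ (D.b x) - φ (D.c x) + φ (D.a x)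

/-- coboundaries -/
def d2 (φ : T → M) (q : Q) : M := φ (D.f0 q) - φ (D.f1 q) + φ (D.f2 q) - φ (D.f3 q)

theorem d1_d0 (φ : V → M) (x : T) : D.d1 (D.d0 φ) x = 0 := by
  simp only [d1, d0, D.sa, D.ta, D.tb]; abel

theorem d2_d1 (φ : E → M) (q : Q) : D.d2 (D.d1 φ) q = 0 := by
  simp only [d1, d2, D.e01, D.e12, D.e02, D.e23, D.e13, D.e03]; abel

variable [Module K M]

theorem ev_b1 (φ : V → M) (c : E →₀ K) : ev K φ (D.b1 K c) = ev K (D.d0 φ) c :=
  ev_ext (f := ev K φ ∘ₗ D.b1 K) (fun x => by simp [b1, d0]) c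

theorem ev_b2 (φ : E → M) (c : T →₀ K) : ev K φ (D.b2 K c) = ev K (D.d1 φ) c :=
  ev_ext (f := ev K φ ∘ₗ D.b2 K) (fun x => by simp [b2, d1]) c

theorem ev_b3 (φ : T → M) (c : Q →₀ K) : ev K φ (D.b3 K c) = ev K (D.d2 φ) c :=
  ev_ext (f := ev K φ ∘ₗ D.b3 K) (fun x => by simp [b3, d2]) c

theorem ev_d0_b2 (φ : V → M) (c : T →₀ K) : ev K (D.d0 φ) (D.b2 K c) = 0 := by
  rw [ev_b2]; exact ev_mem (N := ⊥) (fun x _ => D.d1_d0 φ x) (mem_ch_univ c)

theorem ev_d1_b3 (φ : E → M) (c : Q →₀ K) : ev K (D.d1 φ) (D.b3 K c) = 0 := by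
  rw [ev_b3]; exact ev_mem (N := ⊥) (fun x _ => D.d2_d1 φ x) (mem_ch_univ c)

variable {R : Type*} [Ring R]

/-- curvature -/
def F (g : E → Rˣ) (x : T) : R := g (D.a x) * g (D.b x) - g (D.c x)

/-- gauge transformation -/
def ga (γ : V → Rˣ) (g : E → Rˣ) (e : E) : Rˣ := γ (D.s e) * g e * (γ (D.t e))⁻¹

end Ds

/-- difference of two functions with values in units -/
def dif {S R : Type*} [Ring R] (g' g : S → Rˣ) (e : S) : R := g' e - g e

namespace Ds

variable {V E T Q : Type*} (D : Ds V E T Q) {R : Type*} [Ring R]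

theorem d2_F (g : E → Rˣ) (q : Q) : D.d2 (D.F g) q =
    D.F g (D.f3 q) * (g (D.b (D.f0 q)) - 1) - (g (D.a (D.f3 q)) - 1) * D.F g (D.f0 q) := by
  simp only [F, d2, D.e01, D.e12, D.e02, D.e23, D.e13, D.e03]; noncomm_ring

theorem F_sub (g' g : E → Rˣ) (x : T) : D.F g' x - D.F g x - D.d1 (dif g' g) x =
    dif g' g (D.a x) * (g' (D.b x) - 1) + (g (D.a x) - 1) * dif g' g (D.b x) := by
  simp only [F, d1, dif]; noncomm_ring

theorem F_ga (γ : V → Rˣ) (g : E → Rˣ) (x : T) :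
    D.F (D.ga γ g) x = γ (D.s (D.a x)) * D.F g x * ↑(γ (D.t (D.b x)))⁻¹ := by
  simp only [F, ga, D.sa, D.ta, D.tb, Units.val_mul, mul_sub, sub_mul, mul_assoc,
    Units.inv_mul_cancel_left]

theorem F_one (x : T) : D.F (1 : E → Rˣ) x = 0 := by simp [F]

theorem ga_one (g : E → Rˣ) : D.ga 1 g = g := by funext e; simp [ga]

theorem ga_mul (γ γ' : V → Rˣ) (g : E → Rˣ) : D.ga (γ * γ') g = D.ga γ (D.ga γ' g) := by
  funext e; simp [ga, mul_assoc]

end Ds

variable {p : ℕ} [Fact p.Prime] {K O : Type*} [CommRing K] [CommRing O] [Algebra K O]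
  {G : Gr (Gm p) K O} {m I J : Ideal O} {S : Type*}

/-- `In I` as a submodule -/
def inS (G : Gr (Gm p) K O) (I : Ideal O) : Submodule K (Tw G) :=
  (I.restrictScalars K).comap (o G).toLinearMap

theorem ev_in {P : Set S} {φ : S → Tw G} (h : ∀ x ∈ P, In I (φ x)) {c : S →₀ K}
    (hc : c ∈ ch K P) : In I (ev K φ c) := ev_mem (N := inS G I) h hc

theorem in_zero : In I (0 : Tw G) := (inS G I).zero_mem

theorem in_bot {x : Tw G} : In ⊥ x ↔ x = 0 := by simp [In]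

theorem in_smul (r : K) {x : Tw G} (h : In I x) : In I (r • x) := (inS G I).smul_mem r h

/-- the graded ideal of the values of `φ` on `P` -/
def vI (φ : S → Tw G) (P : Set S) : Ideal O := G.sp ((fun x => o G (φ x)) '' P)

theorem id_vI (φ : S → Tw G) (P : Set S) : G.Id (vI φ P) := G.id_sp _

theorem in_vI (φ : S → Tw G) {P : Set S} {x : S} (h : x ∈ P) : In (vI φ P) (φ x) :=
  Gr.mem_sp ⟨x, h, rfl⟩

theorem vI_le (hI : G.Id I) {φ : S → Tw G} {P : Set S} : vI φ P ≤ I ↔ ∀ x ∈ P, In I (φ x) :=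
  hI.sp_le.trans forall_mem_image

/-- Nakayama with retreats, for values -/
theorem in_of_retreat {N : ℕ} (hm : G.Id m) (hN : m ^ N = ⊥) (hJ : G.Id J) {φ : S → Tw G}
    {P : ℕ → Set S} (h : ∀ i < N, ∀ I, G.Id I → (∀ x ∈ P (i + 1), In I (φ x)) →
      ∀ x ∈ P i, In (J ⊔ m * I) (φ x)) : ∀ x ∈ P 0, In J (φ x) :=
  (vI_le hJ).1 (nak_fin hN (I := fun i => vI φ (P i)) fun i hi =>
    (vI_le (hJ.sup (hm.mul (id_vI _ _)))).2 (h i hi _ (id_vI _ _) fun _ => in_vI φ))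

theorem in_lm (hm : G.Id m) (hI : G.Id I) {u : (Tw G)ˣ} (hu : u ∈ U hm) {x : Tw G} (hx : In I x) :
    In (m * I) (((u : Tw G) - 1) * x) := o_mul_mem hm hI hu hx

theorem in_rm (hm : G.Id m) (hI : G.Id I) {u : (Tw G)ˣ} (hu : u ∈ U hm) {x : Tw G} (hx : In I x) :
    In (m * I) (x * ((u : Tw G) - 1)) := mul_comm I m ▸ o_mul_mem hI hm hx hu

/-- nilpotent fixed point theorem in the congruence subgroup -/
theorem fixU (hm : G.Id m) (hn : IsNilpotent m) (Φ : (S → U hm) → S → U hm)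
    (hΦ : ∀ s s' I, G.Id I → (∀ i, In I ((s' i).1.val - (s i).1.val)) →
      ∀ i, In (m * I) ((Φ s' i).1.val - (Φ s i).1.val)) : ∃ s, Φ s = s := by
  obtain ⟨N, hN⟩ := hn
  have key : ∀ k i, In (m ^ k) ((Φ^[k + 1] 1 i).1.val - (Φ^[k] 1 i).1.val) := fun k => by
    induction k with
    | zero => simp [In]
    | succ k ih =>
      have := hΦ _ _ _ (hm.pow k) ih
      rwa [← Function.iterate_succ_apply' Φ, ← Function.iterate_succ_apply' Φ, ← pow_succ'] at this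
  refine ⟨Φ^[N] 1, funext fun i => Subtype.ext (Units.ext ?_)⟩
  have := key N i
  rw [hN, Function.iterate_succ_apply'] at this
  exact sub_eq_zero.1 (in_bot.1 this)

/-- `1 + x` in the congruence subgroup -/
def unU (hm : G.Id m) (hn : IsNilpotent m) (x : Tw G) (hx : In m x) : U hm :=
  ⟨un hm hn x hx, un_mem hm hn x hx hm hx⟩

@[simp] theorem val_unU (hm : G.Id m) (hn : IsNilpotent m) (x : Tw G) (hx : In m x) :
    (unU hm hn x hx).1.val = 1 + x := rfl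

theorem dif_in (hI : G.Id I) {g g' : S → (Tw G)ˣ} {e : S} (h' : g' e ∈ U hI) (h : g e ∈ U hI) :
    In I (dif g' g e) := by
  have : dif g' g e = (g' e - 1) - (g e - 1) := by simp [dif]
  rw [this]; exact In.sub h' h

theorem U_of_dif (hI : G.Id I) {g g' : S → (Tw G)ˣ} {e : S} (h : g e ∈ U hI)
    (h' : In I (dif g' g e)) : g' e ∈ U hI := by
  have : (g' e : Tw G) - 1 = dif g' g e + (g e - 1) := by simp [dif]
  rw [mem_U, this]; exact In.add h' h

namespace Ds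

variable {V E T Q : Type*} (D : Ds V E T Q) {g g' g'' : E → (Tw G)ˣ}

theorem d0_in {φ : V → Tw G} {e : E} (h1 : In I (φ (D.s e))) (h2 : In I (φ (D.t e))) :
    In I (D.d0 φ e) := In.sub h2 h1

theorem d1_in {φ : E → Tw G} {x : T} (h1 : In I (φ (D.a x))) (h2 : In I (φ (D.b x)))
    (h3 : In I (φ (D.c x))) : In I (D.d1 φ x) := In.add (In.sub h2 h3) h1

/-- Bianchi -/
theorem d2_F_in (hm : G.Id m) (hI : G.Id I) (hg : ∀ e, g e ∈ U hm) {q : Q}
    (h0 : In I (D.F g (D.f0 q))) (h3 : In I (D.F g (D.f3 q))) : In (m * I) (D.d2 (D.F g) q) := by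
  rw [d2_F]; exact In.sub (in_rm hm hI (hg _) h3) (in_lm hm hI (hg _) h0)

theorem F_sub_in (hm : G.Id m) (hI : G.Id I) (hg : ∀ e, g e ∈ U hm) (hg' : ∀ e, g' e ∈ U hm) {x : T}
    (h1 : In I (dif g' g (D.a x))) (h2 : In I (dif g' g (D.b x))) :
    In (m * I) (D.F g' x - D.F g x - D.d1 (dif g' g) x) := by
  rw [F_sub]; exact In.add (in_rm hm hI (hg' _) h1) (in_lm hm hI (hg _) h2)

theorem F_sub_in' (hI : G.Id I) {x : T} (h1 : In I (dif g' g (D.a x))) (h2 : In I (dif g' g (D.b x)))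
    (h3 : In I (dif g' g (D.c x))) : In I (D.F g' x - D.F g x) := by
  rw [← sub_add_cancel (D.F g' x - D.F g x) (D.d1 (dif g' g) x), F_sub]
  exact In.add (In.add (mem_right hI _ h1) (mem_left hI _ h2)) (D.d1_in h1 h2 h3)

/-- the linear part of the curvature -/
theorem F_lin (hm : G.Id m) (hg : ∀ e, g e ∈ U hm) (x : T) :
    In (m * m) (D.F g x - D.d1 (dif g 1) x) := by
  have := D.F_sub_in hm hm (g := 1) (fun _ => one_mem _) hg (x := x)
    (dif_in hm (hg _) (one_mem _)) (dif_in hm (hg _) (one_mem _))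
  rwa [F_one, sub_zero] at this

theorem F_in (hm : G.Id m) (hg : ∀ e, g e ∈ U hm) (x : T) : In m (D.F g x) := by
  have := D.F_sub_in' hm (g := 1) (g' := g) (x := x) (dif_in hm (hg _) (one_mem _))
    (dif_in hm (hg _) (one_mem _)) (dif_in hm (hg _) (one_mem _))
  rwa [F_one, sub_zero] at this

theorem F_ga_in (hI : G.Id I) (γ : V → (Tw G)ˣ) {x : T} (h : In I (D.F g x)) :
    In I (D.F (D.ga γ g) x) := by rw [F_ga]; exact in_conj hI h _ _

theorem ga_U (hm : G.Id m) {γ : V → (Tw G)ˣ} (hγ : ∀ v, γ v ∈ U hm) (hg : ∀ e, g e ∈ U hm) (e : E) :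
    D.ga γ g e ∈ U hm := mul_mem (mul_mem (hγ _) (hg _)) (inv_mem (hγ _))

/-- the curvature is generated by its values on detected chains (`N` retreats) -/
theorem curv_le {N : ℕ} (hm : G.Id m) (hN : m ^ N = ⊥) (hJ : G.Id J) (hg : ∀ e, g e ∈ U hm)
    {P : ℕ → Set T} {W : ℕ → Set Q}
    (hW : ∀ i < N, ∀ q ∈ W i, D.f0 q ∈ P (i + 1) ∧ D.f3 q ∈ P (i + 1))
    (h : ∀ i < N, ∀ x ∈ P i, ∃ c ∈ ch K (W i), In J (D.F g x - ev K (D.F g) (D.b3 K c))) :
    ∀ x ∈ P 0, In J (D.F g x) :=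
  in_of_retreat hm hN hJ fun i hi I hI h1 x hx => by
    obtain ⟨c, hc, h2⟩ := h i hi x hx
    rw [← sub_add_cancel (D.F g x) (ev K (D.F g) (D.b3 K c))]
    refine In.add (h2.mono le_sup_left) (In.mono ?_ le_sup_right)
    rw [ev_b3]
    exact ev_in (fun q hq => D.d2_F_in hm hI hg (h1 _ (hW i hi q hq).1) (h1 _ (hW i hi q hq).2)) hc

/-- the difference of two connections with the same curvature modulo `J` is generated by its periods -/
theorem dif_le {N : ℕ} (hm : G.Id m) (hN : m ^ N = ⊥) (hJ : G.Id J) (hg : ∀ e, g e ∈ U hm)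
    (hg' : ∀ e, g' e ∈ U hm) {A : ℕ → Set E} {P : ℕ → Set T}
    (hP : ∀ i < N, ∀ x ∈ P i, D.a x ∈ A (i + 1) ∧ D.b x ∈ A (i + 1) ∧ In J (D.F g' x - D.F g x))
    (h : ∀ i < N, ∀ e ∈ A i, ∃ c ∈ ch K (P i), In J (dif g' g e - ev K (dif g' g) (D.b2 K c))) :
    ∀ e ∈ A 0, In J (dif g' g e) :=
  in_of_retreat hm hN hJ fun i hi I hI h1 e he => by
    obtain ⟨c, hc, h2⟩ := h i hi e he
    rw [← sub_add_cancel (dif g' g e) (ev K (dif g' g) (D.b2 K c))]
    refine In.add (h2.mono le_sup_left) ?_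
    rw [ev_b2]
    refine ev_in (fun x hx => ?_) hc
    obtain ⟨k1, k2, k3⟩ := hP i hi x hx
    rw [← sub_sub_cancel (D.F g' x - D.F g x) (D.d1 (dif g' g) x)]
    exact In.sub (k3.mono le_sup_left)
      ((D.F_sub_in hm hI hg hg' (h1 _ k1) (h1 _ k2)).mono le_sup_right)

end Ds

end Crest.Agent.N255.Ku

end
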