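import Crest.Agent.N255.Ku.Mon

/-!
# Row 255 (helper21): Kuranishi families with contractions on the cochain side
-/

set_option autoImplicit false
open Set Module

noncomputable section

namespace Crest.Agent.N255.Ku

open Cs Cs.Tw Tp Tg

section lin

variable {K S S' M M' : Type*} [Field K] [AddCommGroup M] [Module K M] [Module.Finite K M]
  [AddCommGroup M'] [Module K M'] [Module.Finite K M']

/-- a functional on scalar cochains applied to vector valued cochains -/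
def tev (lam : Dual K (S → K)) : (S → M) →ₗ[K] M :=
  ∑ i, (LinearMap.toSpanSingleton K M (finBasis K M i)) ∘ₗ lam ∘ₗ
    ((finBasis K M).coord i).compLeft S

theorem dual_tev (lam : Dual K (S → K)) (φ : S → M) (l : Dual K M) :
    l (tev lam φ) = lam fun x => l (φ x) := by
  have : (fun x => l (φ x)) = ∑ i, l (finBasis K M i) • fun x => (finBasis K M).coord i (φ x) := by
    funext x
    rw [← (finBasis K M).sum_repr (φ x), map_sum]
    simp [mul_comm]
  rw [this]
  simp only [tev, LinearMap.sum_apply, LinearMap.comp_apply, LinearMap.toSpanSingleton_apply, map_sum,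
    map_smul, smul_eq_mul, mul_comm]
  rfl

omit [Module.Finite K M] in
theorem dual_ext {x y : M} (h : ∀ l : Dual K M, l x = l y) : x = y :=
  sub_eq_zero.1 ((forall_dual_apply_eq_zero_iff K _).1 fun l => by rw [map_sub, h, sub_self])

omit [Module.Finite K M] in
theorem mem_of_dual {N : Submodule K M} {x : M} (h : ∀ l : Dual K M, (∀ y ∈ N, l y = 0) → l x = 0) :
    x ∈ N := (Subspace.forall_mem_dualAnnihilator_apply_eq_zero_iff N x).1 fun l hl =>
  h l ((Submodule.mem_dualAnnihilator l).1 hl)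

theorem tev_map (f : M →ₗ[K] M') (lam : Dual K (S → K)) (φ : S → M) :
    tev lam (fun x => f (φ x)) = f (tev lam φ) :=
  dual_ext fun l => (dual_tev _ _ _).trans (dual_tev lam φ (l ∘ₗ f)).symm

/-- chains as functionals -/
def evd (c : S →₀ K) : Dual K (S → K) := c.sum fun x r => r • LinearMap.proj x

omit [Module.Finite K M] in
theorem evd_apply (c : S →₀ K) (φ : S → K) : evd c φ = Ku.ev K φ c := by
  simp [evd, Finsupp.linearCombination_apply, Finsupp.sum, LinearMap.sum_apply]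

theorem tev_evd (c : S →₀ K) (φ : S → M) : tev (evd c) φ = Ku.ev K φ c :=
  dual_ext fun l => by rw [dual_tev, evd_apply, Ku.ev_map]

/-- an operator on scalar cochains applied to vector valued cochains -/
def tens (H : (S → K) →ₗ[K] S' → K) (φ : S → M) (e : S') : M := tev (LinearMap.proj e ∘ₗ H) φ

theorem dual_tens (H : (S → K) →ₗ[K] S' → K) (φ : S → M) (e : S') (l : Dual K M) :
    l (tens H φ e) = H (fun x => l (φ x)) e := dual_tev _ _ _

theorem dual_tens' (H : (S → K) →ₗ[K] S' → K) (φ : S → M) (l : Dual K M) :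
    (fun e => l (tens H φ e)) = H fun x => l (φ x) := funext fun e => dual_tens H φ e l

theorem tens_map (f : M →ₗ[K] M') (H : (S → K) →ₗ[K] S' → K) (φ : S → M) (e : S') :
    tens H (fun x => f (φ x)) e = f (tens H φ e) := tev_map f _ φ

theorem tens_sub (H : (S → K) →ₗ[K] S' → K) (φ ψ : S → M) (e : S') :
    tens H (fun x => φ x - ψ x) e = tens H φ e - tens H ψ e := map_sub (tev _) φ ψ

theorem tev_tens (lam : Dual K (S' → K)) (H : (S → K) →ₗ[K] S' → K) (φ : S → M) :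
    tev lam (tens H φ) = tev (lam ∘ₗ H) φ :=
  dual_ext fun l => by rw [dual_tev, dual_tev, dual_tens']; rfl

/-- `φ` lies in `C ⊗ M` up to a cochain with values in `N` -/
def Ov (C : Submodule K (S → K)) (N : Submodule K M) (φ : S → M) : Prop :=
  ∀ l : Dual K M, (∀ y ∈ N, l y = 0) → (fun x => l (φ x)) ∈ C

/-- scalar cochains that vanish on `P` -/
def vn (K : Type*) [Field K] (P : Set S) : Submodule K (S → K) where
  carrier := {φ | ∀ x ∈ P, φ x = 0}
  add_mem' ha hb x h := by simp [ha x h, hb x h]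
  zero_mem' _ _ := rfl
  smul_mem' r φ ha x h := by simp [ha x h]

variable {C C' : Submodule K (S → K)} {N N' : Submodule K M} {φ ψ : S → M}

omit [Module.Finite K M] in
theorem ov_vn {P : Set S} : Ov (vn K P) N φ ↔ ∀ x ∈ P, φ x ∈ N :=
  ⟨fun h x hx => mem_of_dual fun l hl => h l hl x hx, fun h _ hl x hx => hl _ (h x hx)⟩

omit [Module.Finite K M] in
theorem ov_of_mem (h : ∀ x, φ x ∈ N) : Ov C N φ := fun _ hl => by
  rw [funext fun x => hl _ (h x)]; exact C.zero_mem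

omit [Module.Finite K M] in
theorem Ov.mono (h : Ov C N φ) (h1 : C ≤ C') (h2 : N ≤ N') : Ov C' N' φ :=
  fun l hl => h1 (h l fun y hy => hl y (h2 hy))

omit [Module.Finite K M] in
theorem Ov.add (h : Ov C N φ) (h' : Ov C N ψ) : Ov C N fun x => φ x + ψ x := fun l hl => by
  simp only [map_add]; exact add_mem (h l hl) (h' l hl)

omit [Module.Finite K M] in
theorem Ov.neg (h : Ov C N φ) : Ov C N fun x => -φ x := fun l hl => by
  simp only [map_neg]; exact neg_mem (h l hl)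

omit [Module.Finite K M] in
theorem Ov.sub (h : Ov C N φ) (h' : Ov C N ψ) : Ov C N fun x => φ x - ψ x := fun l hl => by
  simp only [map_sub]; exact sub_mem (h l hl) (h' l hl)

theorem Ov.tens (h : Ov C N φ) {H : (S → K) →ₗ[K] S' → K} {D : Submodule K (S' → K)}
    (hH : ∀ q ∈ C, H q ∈ D) : Ov D N (tens H φ) := fun l hl => by
  rw [dual_tens']; exact hH _ (h l hl)

theorem Ov.tev (h : Ov C N φ) {lam : Dual K (S → K)} (hl : ∀ q ∈ C, lam q = 0) : tev lam φ ∈ N :=
  mem_of_dual fun l h1 => by rw [dual_tev]; exact hl _ (h l h1)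

theorem tev_mem (lam : Dual K (S → K)) (h : ∀ x, φ x ∈ N) : tev lam φ ∈ N :=
  (ov_of_mem (C := ⊥) h).tev fun _ hq => by rw [(Submodule.mem_bot K).1 hq, map_zero]

theorem tens_mem (H : (S → K) →ₗ[K] S' → K) (h : ∀ x, φ x ∈ N) (e : S') : tens H φ e ∈ N :=
  tev_mem _ h

/-- directed unions: one index works for all functionals -/
theorem Ov.dir {ι : Type*} [Nonempty ι] {A : ι → Submodule K (S → K)} (hA : Directed (· ≤ ·) A)
    (h : Ov (⨆ i, A i) N φ) : ∃ i, Ov (A i) N φ := by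
  let f : N.dualAnnihilator →ₗ[K] S → K :=
    { toFun l x := l.1 (φ x), map_add' _ _ := rfl, map_smul' _ _ := rfl }
  have hc := (Submodule.fg_iff_compact _).1 (Module.Finite.fg_top.map f)
  obtain ⟨_, ⟨i, rfl⟩, hi⟩ := (CompleteLattice.isCompactElement_iff_le_of_directed_sSup_le _ _).1 hc
    (range A) (range_nonempty A) (directedOn_range.2 hA) (by
      rintro _ ⟨l, -, rfl⟩
      exact h l.1 ((Submodule.mem_dualAnnihilator _).1 l.2))
  exact ⟨i, fun l hl => hi ⟨⟨l, (Submodule.mem_dualAnnihilator l).2 hl⟩, trivial, rfl⟩⟩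

end lin

variable {p : ℕ} [Fact p.Prime] {K O : Type*} [Field K] [CommRing O] [Algebra K O]
  [Module.Finite K O] {G : Gr (Gm p) K O} {m I J : Ideal O} {O' : Type*} [CommRing O'] [Algebra K O']
  [Module.Finite K O'] {G' : Gr (Gm p) K O'} {φ : O →ₐ[K] O'}

instance fin_Tw : Module.Finite K (Tw G) := inferInstanceAs (Module.Finite K O)

theorem tens_in {S S' : Type*} (H : (S → K) →ₗ[K] S' → K) {ψ : S → Tw G} (h : ∀ x, In I (ψ x))
    (e : S') : In I (tens H ψ e) := tens_mem (N := inS G I) H h e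

theorem tev_in {S : Type*} (lam : Dual K (S → K)) {ψ : S → Tw G} (h : ∀ x, In I (ψ x)) :
    In I (tev lam ψ) := tev_mem (N := inS G I) lam h

namespace Ds

variable {V E T Q : Type*} (D : Ds V E T Q) {g g' g'' : E → (Tw G)ˣ}

/-- Kuranishi correction for a contraction on cochains -/
def Kc (H : (T → K) →ₗ[K] E → K) (g g' : E → (Tw G)ˣ) : Prop :=
  ∀ e, Ku.dif g' g e = -tens H (D.Nl g g') e

theorem kc_ex (hm : G.Id m) (hn : IsNilpotent m) (H : (T → K) →ₗ[K] E → K) (hg : ∀ e, g e ∈ U hm) :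
    ∃ g' : E → (Tw G)ˣ, (∀ e, g' e ∈ U hm) ∧ D.Kc H g g' := by
  have key : ∀ (s : E → U hm) e, In m ((g e).val - 1 - tens H (D.Nl g fun e => (s e).1) e) :=
    fun s e => In.sub (hg e) (tens_in H (D.Nl_m hm hg fun e => (s e).2) e)
  obtain ⟨s, hs⟩ := fixU hm hn (fun s e => unU hm hn _ (key s e)) fun s s' I hI h1 e => by
    simp only [val_unU, add_sub_add_left_eq_sub, sub_sub_sub_cancel_left]
    rw [← neg_sub, ← tens_sub]
    exact In.neg (tens_in H (fun x => D.Nl_sub hm hI (fun e => (s e).2) (fun e => (s' e).2)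
      (h1 _) (h1 _)) e)
  refine ⟨fun e => (s e).1, fun e => (s e).2, fun e => ?_⟩
  have := congrArg (fun s => (s e).1.val) hs
  simp only [val_unU] at this
  rw [Ku.dif, ← this]; abel

variable {D} {H : (T → K) →ₗ[K] E → K}

theorem Kc.dual (k : D.Kc H g g') (l : Dual K (Tw G)) :
    (fun e => l (Ku.dif g' g e)) = -H fun x => l (D.Nl g g' x) :=
  funext fun e => by rw [k e, map_neg, dual_tens]; rfl

omit [Module.Finite K O] in
theorem dual_F (D : Ds V E T Q) (g g' : E → (Tw G)ˣ) (l : Dual K (Tw G)) :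
    (fun x => l (D.F g' x)) = (fun x => l (D.Nl g g' x)) + D.d1 fun e => l (Ku.dif g' g e) :=
  funext fun x => by simp only [Nl, d1, map_sub, map_add, Pi.add_apply]; abel

/-- the curvature is `q - δ H q` -/
theorem Kc.curv (k : D.Kc H g g') (l : Dual K (Tw G)) : (fun x => l (D.F g' x)) =
    (fun x => l (D.Nl g g' x)) - D.d1 (H fun x => l (D.Nl g g' x)) := by
  rw [dual_F D g g', k.dual]
  funext x
  simp only [d1, Pi.add_apply, Pi.sub_apply, Pi.neg_apply]; abel

/-- **normal form** -/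
theorem Kc.H_cur (k : D.Kc H g g') (hH : ∀ y, H (D.d1 (H y)) = H y) (l : Dual K (Tw G)) :
    H (fun x => l (D.F g' x)) = 0 := by rw [k.curv, map_sub, hH, sub_self]

/-- the correction takes values in the range of `H` -/
theorem Kc.ov (k : D.Kc H g g') {C : Submodule K (T → K)} {C' : Submodule K (E → K)}
    (hH : ∀ q ∈ C, H q ∈ C') {N : Submodule K (Tw G)} (h : Ov C N (D.Nl g g')) :
    Ov C' N (Ku.dif g' g) := funext k ▸ (h.tens hH).neg

theorem Kc.ov_range (k : D.Kc H g g') {C' : Submodule K (E → K)} (hH : ∀ q, H q ∈ C')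
    (N : Submodule K (Tw G)) : Ov C' N (Ku.dif g' g) :=
  k.ov (C := ⊤) (fun q _ => hH q) fun _ _ => trivial

theorem Kc.map (k : D.Kc H g g') (hφ : G.Hom G' φ) :
    D.Kc H (fun e => um hφ (g e)) fun e => um hφ (g' e) := fun e => by
  rw [dif_um, k e, map_neg]
  congr 1
  refine (tens_map (Tw.map hφ).toLinearMap H _ e).symm.trans ?_
  congr 1
  funext x
  simp only [Nl, F_um, d1, dif_um, map_sub, map_add, AlgHom.toLinearMap_apply]

theorem Kc.uniq (hm : G.Id m) (hn : IsNilpotent m) (k : D.Kc H g g') (k' : D.Kc H g g'')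
    (hg' : ∀ e, g' e ∈ U hm) (hg'' : ∀ e, g'' e ∈ U hm) : g'' = g' := by
  obtain ⟨N, hN⟩ := hn
  have := in_of_retreat hm hN G.id_bot (φ := Ku.dif g'' g') (P := fun _ => univ)
    fun i _ I hI h1 e _ => by
      have e1 : Ku.dif g'' g' e = Ku.dif g'' g e - Ku.dif g' g e := by simp [Ku.dif]
      rw [e1, k e, k' e, neg_sub_neg, ← neg_sub, ← tens_sub]
      exact (In.neg (tens_in H (fun x => D.Nl_sub hm hI hg' hg'' (h1 _ trivial) (h1 _ trivial))
        e)).mono le_sup_right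
  funext e
  exact Units.ext (sub_eq_zero.1 (in_bot.1 (this e trivial)))

/-- one retreat for the correction, compared with a third connection `g0` -/
theorem Kc.step (hm : G.Id m) (hI : G.Id I) (k : D.Kc H g g') {g0 : E → (Tw G)ˣ}
    (hg : ∀ e, g0 e ∈ U hm) (hg' : ∀ e, g' e ∈ U hm) {A : Set E} {P : Set T}
    (hH : ∀ q ∈ vn K P, H q ∈ vn K A)
    (hP : ∀ x ∈ P, In I (Ku.dif g' g0 (D.a x)) ∧ In I (Ku.dif g' g0 (D.b x)))
    (hF : ∀ e ∈ A, In J (tens H (fun x => D.F g0 x + D.d1 (Ku.dif g g0) x) e)) :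
    ∀ e ∈ A, In (J ⊔ m * I) (Ku.dif g' g e) := fun e he => by
  have e1 : D.Nl g g' = fun x => (D.F g0 x + D.d1 (Ku.dif g g0) x) - -(D.Nl g0 g' x - D.F g0 x) :=
    funext fun x => by simp only [Nl, d1, Ku.dif]; abel
  rw [k e, e1, tens_sub]
  refine In.neg (In.sub ((hF e he).mono le_sup_left) (In.mono ?_ le_sup_right))
  exact ov_vn.1 ((ov_vn.2 fun x hx => In.neg (D.Nl_in hm hI hg hg' (hP x hx).1 (hP x hx).2) :
    Ov (vn K P) (inS G (m * I)) _).tens hH) e he

/-- `N` retreats -/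
theorem Kc.dif_in {N : ℕ} (hm : G.Id m) (hN : m ^ N = ⊥) (hJ : G.Id J) (k : D.Kc H g g')
    (hg : ∀ e, g e ∈ U hm) (hg' : ∀ e, g' e ∈ U hm) {A : ℕ → Set E} {P : ℕ → Set T}
    (hP : ∀ i < N, ∀ x ∈ P i, D.a x ∈ A (i + 1) ∧ D.b x ∈ A (i + 1) ∧ In J (D.F g x))
    (hA : ∀ i < N, ∀ q ∈ vn K (P i), H q ∈ vn K (A i)) : ∀ e ∈ A 0, In J (Ku.dif g' g e) :=
  in_of_retreat hm hN hJ fun i hi I hI h1 => k.step hm hI hg hg' (hA i hi)
    (fun x hx => ⟨h1 _ (hP i hi x hx).1, h1 _ (hP i hi x hx).2.1⟩)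
    (ov_vn.1 ((ov_vn.2 fun x hx => show In J (D.F g x + D.d1 (Ku.dif g g) x) by
      simpa [d1, Ku.dif] using (hP i hi x hx).2.2 :
      Ov (vn K (P i)) (inS G J) _).tens (hA i hi)))

/-- no retreat -/
theorem Kc.dif_in1 (hm : G.Id m) (hn : IsNilpotent m) (hJ : G.Id J) (k : D.Kc H g g')
    (hg : ∀ e, g e ∈ U hm) (hg' : ∀ e, g' e ∈ U hm) {P : Set T} (hP : ∀ x ∈ P, In J (D.F g x))
    (hH : ∀ q ∈ vn K P, H q = 0) (e : E) : In J (Ku.dif g' g e) := by
  obtain ⟨N, hN⟩ := hn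
  exact k.dif_in hm hN hJ hg hg' (A := fun _ => univ) (P := fun _ => P)
    (fun _ _ x hx => ⟨trivial, trivial, hP x hx⟩) (fun _ _ q hq => hH q hq ▸ zero_mem _) e trivial

variable (D)

/-- gauge fixing for a contraction on cochains -/
def Gc (H0 : (E → K) →ₗ[K] V → K) (g g' : E → (Tw G)ˣ) (γ : V → (Tw G)ˣ) : Prop :=
  ∀ v, Ku.dif γ 1 v = tens H0 (D.Gl γ g g') v

theorem gc_ex (hm : G.Id m) (hn : IsNilpotent m) (H0 : (E → K) →ₗ[K] V → K)
    (hg : ∀ e, g e ∈ U hm) (hg' : ∀ e, g' e ∈ U hm) :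
    ∃ γ : V → (Tw G)ˣ, (∀ v, γ v ∈ U hm) ∧ D.Gc H0 g g' γ := by
  have key : ∀ (s : V → U hm) v, In m (tens H0 (D.Gl (fun v => (s v).1) g g') v) :=
    fun s v => tens_in H0 (D.Gl_m hm hg hg' fun e => (s e).2) v
  obtain ⟨s, hs⟩ := fixU hm hn (fun s v => unU hm hn _ (key s v)) fun s s' I hI h1 v => by
    simp only [val_unU, add_sub_add_left_eq_sub]
    rw [← tens_sub]
    exact tens_in H0 (fun x => D.Gl_sub hm hI hg' (fun e => (s e).2) (fun e => (s' e).2)
      (h1 _) (h1 _)) v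
  refine ⟨fun v => (s v).1, fun v => (s v).2, fun v => ?_⟩
  have := congrArg (fun s => (s v).1.val) hs
  simp only [val_unU] at this
  rw [Ku.dif, ← this]; simp

variable {D} {H0 : (E → K) →ₗ[K] V → K} {γ : V → (Tw G)ˣ}

theorem Gc.dual (k : D.Gc H0 g g' γ) (l : Dual K (Tw G)) :
    (fun v => l (Ku.dif γ 1 v)) = H0 fun e => l (D.Gl γ g g' e) :=
  funext fun e => by rw [k e, dual_tens]

/-- the difference is `q - δ H0 q` -/
theorem Gc.per (k : D.Gc H0 g g' γ) (l : Dual K (Tw G)) :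
    (fun e => l (Ku.dif (D.ga γ g') g e)) =
      (fun e => l (D.Gl γ g g' e)) - D.d0 (H0 fun e => l (D.Gl γ g g' e)) := by
  rw [← k.dual]
  funext x
  simp only [Gl, d0, map_add, map_sub, Pi.sub_apply]; abel

theorem Gc.H_dif (k : D.Gc H0 g g' γ) (hH : ∀ y, H0 (D.d0 (H0 y)) = H0 y) (l : Dual K (Tw G)) :
    H0 (fun e => l (Ku.dif (D.ga γ g') g e)) = 0 := by rw [k.per, map_sub, hH, sub_self]

theorem Gc.ov (k : D.Gc H0 g g' γ) {C : Submodule K (E → K)} {C' : Submodule K (V → K)}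
    (hH : ∀ q ∈ C, H0 q ∈ C') {N : Submodule K (Tw G)} (h : Ov C N (D.Gl γ g g')) :
    Ov C' N (Ku.dif γ 1) := funext k ▸ h.tens hH

theorem Gc.map (k : D.Gc H0 g g' γ) (hφ : G.Hom G' φ) :
    D.Gc H0 (fun e => um hφ (g e)) (fun e => um hφ (g' e)) fun v => um hφ (γ v) := fun v => by
  have e1 : ∀ v, Ku.dif (fun v => um hφ (γ v)) 1 v = Tw.map hφ (Ku.dif γ 1 v) := fun v => by
    simp [Ku.dif]
  rw [e1, k v]
  refine (tens_map (Tw.map hφ).toLinearMap H0 _ v).symm.trans ?_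
  congr 1
  funext x
  simp only [Gl, ga_um, d0, e1, dif_um, map_sub, map_add, AlgHom.toLinearMap_apply]

theorem Gc.step (hm : G.Id m) (hI : G.Id I) (k : D.Gc H0 g g' γ) (hg' : ∀ e, g' e ∈ U hm)
    (hγ : ∀ v, γ v ∈ U hm) {B : Set V} {A : Set E} (hH : ∀ q ∈ vn K A, H0 q ∈ vn K B)
    (hA : ∀ e ∈ A, In I (Ku.dif γ 1 (D.s e)) ∧ In I (Ku.dif γ 1 (D.t e)) ∧ In J (Ku.dif g' g e)) :
    ∀ v ∈ B, In (J ⊔ m * I) (Ku.dif γ 1 v) :=
  ov_vn.1 (k.ov hH (N := inS G (J ⊔ m * I)) (ov_vn.2 fun e he => by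
    rw [← add_sub_cancel (Ku.dif g' g e) (D.Gl γ g g' e)]
    exact In.add ((hA e he).2.2.mono le_sup_left)
      ((D.Gl_in hm hI hg' hγ (hA e he).1 (hA e he).2.1).mono le_sup_right)))

end Ds

/-- **versality** with periods given by functionals -/
theorem Fr.vers_co {ι V E T Q : Type*} {m' : Ideal O'} {hm' : G'.Id m'} {X : ι → Tw G}
    (S : Fr G m hm' X) (D : Ds V E T Q) (hm : G.Id m) (hn : IsNilpotent m')
    (H0 : (E → K) →ₗ[K] V → K) (z : ι → Dual K (E → K)) {g : E → (Tw G)ˣ} {g' : E → (Tw G')ˣ}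
    (hg : ∀ e, g e ∈ U hm) (hg' : ∀ e, g' e ∈ U hm') (hz : ∀ j, S.Sm (tev (z j) (Ku.dif g 1) - X j)) :
    ∃ (w : ι → U hm') (γ : V → (Tw G')ˣ), (∀ v, γ v ∈ U hm') ∧
      D.Gc H0 (fun e => um (S.hom w) (g e)) g' γ ∧
      ∀ j, tev (z j) (D.Gl γ (fun e => um (S.hom w) (g e)) g') = 0 := by
  have hu : ∀ w e, um (S.hom w) (g e) ∈ U hm' := fun w e => um_mem _ hm hm' (S.loc w) (hg e)
  have k0 : ∀ (γ : V → U hm') j, In m' (tev (z j) (D.Gl (fun v => (γ v).1) 1 g')) := fun γ j =>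
    tev_in _ (D.Gl_m hm' (fun _ => one_mem _) hg' fun v => (γ v).2)
  choose W hW using fun γ : V → U hm' => S.solve hn hz (k0 γ)
  have e1 : ∀ (γ : V → (Tw G')ˣ) w e, D.Gl γ (fun e => um (S.hom w) (g e)) g' e =
      D.Gl γ 1 g' e - Tw.map (S.hom w) (Ku.dif g 1 e) := fun γ w e => by
    simp only [Ds.Gl, Ku.dif, val_um, Pi.one_apply, Units.val_one, map_sub, map_one]; abel
  have key : ∀ (s : V → U hm') v, In m' (tens H0 (D.Gl (fun v => (s v).1)
      (fun e => um (S.hom (W s)) (g e)) g') v) :=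
    fun s v => tens_in _ (D.Gl_m hm' (hu _) hg' fun e => (s e).2) v
  obtain ⟨s, hs⟩ := fixU hm' hn (fun s v => unU hm' hn _ (key s v)) fun s s' I hI h1 v => by
    have h2 : ∀ e, In (m' * I) (D.Gl (fun v => (s' v).1) 1 g' e - D.Gl (fun v => (s v).1) 1 g' e) :=
      fun e => D.Gl_sub hm' hI hg' (fun e => (s e).2) (fun e => (s' e).2) (h1 _) (h1 _)
    have h3 := S.ctl hn hz (w := W s) (w' := W s') (hm'.mul hI) fun j => by
      rw [hW, hW, ← map_sub]; exact tev_in _ h2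
    simp only [val_unU, add_sub_add_left_eq_sub]
    rw [← tens_sub]
    refine tens_in _ (fun e => ?_) v
    rw [e1, e1, sub_sub_sub_comm]
    exact In.sub (h2 e) (S.lip _ _ _ (hm'.mul hI) h3 _)
  refine ⟨W s, fun v => (s v).1, fun v => (s v).2, fun v => ?_, fun j => ?_⟩
  · have := congrArg (fun s => (s v).1.val) hs
    simp only [val_unU] at this
    rw [Ku.dif, ← this]; simp
  · rw [funext (e1 _ _)]
    refine (map_sub (tev (z j)) _ _).trans (sub_eq_zero.2 ?_)
    rw [← hW]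
    exact (tev_map (Tw.map (S.hom (W s))).toLinearMap _ _).symm

end Crest.Agent.N255.Ku

end
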