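import Crest.Agent.N255.Ku.Basic

/-!
# Row 255 (helper21): Kuranishi families relative to a subspace, gauge fixing, gluing
-/

set_option autoImplicit false
open Set

noncomputable section

namespace Crest.Agent.N255.Ku

open Cs Cs.Tw

variable {p : ℕ} [Fact p.Prime] {K O : Type*} [CommRing K] [CommRing O] [Algebra K O]
  {G : Gr (Gm p) K O} {m I J : Ideal O} {O' : Type*} [CommRing O'] [Algebra K O']
  {G' : Gr (Gm p) K O'} {φ : O →ₐ[K] O'}

theorem ev_um {S : Type*} (hφ : G.Hom G' φ) (ψ : S → Tw G) (c : S →₀ K) :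
    ev K (fun x => Tw.map hφ (ψ x)) c = Tw.map hφ (ev K ψ c) := ev_map (Tw.map hφ).toLinearMap ψ c

theorem dif_um {S : Type*} (hφ : G.Hom G' φ) (g' g : S → (Tw G)ˣ) (e : S) :
    dif (fun e => um hφ (g' e)) (fun e => um hφ (g e)) e = Tw.map hφ (dif g' g e) := by simp [dif]

theorem in_map (hφ : G.Hom G' φ) {I' : Ideal O'} (h : ∀ x ∈ I, φ x ∈ I') {x : Tw G} (hx : In I x) :
    In I' (Tw.map hφ x) := h _ hx

namespace Ds

variable {V E T Q : Type*} (D : Ds V E T Q) {g g' g'' : E → (Tw G)ˣ}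

theorem F_um (hφ : G.Hom G' φ) (g : E → (Tw G)ˣ) (x : T) :
    D.F (fun e => um hφ (g e)) x = Tw.map hφ (D.F g x) := by simp [F]

theorem ga_um (hφ : G.Hom G' φ) (γ : V → (Tw G)ˣ) (g : E → (Tw G)ˣ) :
    D.ga (fun v => um hφ (γ v)) (fun e => um hφ (g e)) = fun e => um hφ (D.ga γ g e) := by
  funext e; simp [ga]

/-- curvature of `g'` without the coboundary of `g' - g` -/
def Nl (g g' : E → (Tw G)ˣ) (x : T) : Tw G := D.F g' x - D.d1 (dif g' g) x

/-- `g'` is the Kuranishi correction of `g` for the contraction `h` -/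
def Kr (h : (E →₀ K) →ₗ[K] T →₀ K) (g g' : E → (Tw G)ˣ) : Prop :=
  ∀ e, dif g' g e = -ev K (D.Nl g g') (h (sg K e))

theorem Nl_sub (hm : G.Id m) (hI : G.Id I) (hg' : ∀ e, g' e ∈ U hm) (hg'' : ∀ e, g'' e ∈ U hm) {x : T}
    (h1 : In I (dif g'' g' (D.a x))) (h2 : In I (dif g'' g' (D.b x))) :
    In (m * I) (D.Nl g g'' x - D.Nl g g' x) := by
  convert D.F_sub_in hm hI hg' hg'' h1 h2 using 1
  simp only [Nl, d1, dif]; abel

theorem Nl_in (hm : G.Id m) (hI : G.Id I) (hg : ∀ e, g e ∈ U hm) (hg' : ∀ e, g' e ∈ U hm) {x : T}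
    (h1 : In I (dif g' g (D.a x))) (h2 : In I (dif g' g (D.b x))) :
    In (m * I) (D.Nl g g' x - D.F g x) := by
  convert D.F_sub_in hm hI hg hg' h1 h2 using 1
  simp only [Nl]; abel

theorem Nl_m (hm : G.Id m) (hg : ∀ e, g e ∈ U hm) (hg' : ∀ e, g' e ∈ U hm) (x : T) :
    In m (D.Nl g g' x) :=
  In.sub (D.F_in hm hg' x) (D.d1_in (dif_in hm (hg' _) (hg _)) (dif_in hm (hg' _) (hg _))
    (dif_in hm (hg' _) (hg _)))

/-- **existence** -/
theorem ku_ex (hm : G.Id m) (hn : IsNilpotent m) (h : (E →₀ K) →ₗ[K] T →₀ K)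
    (hg : ∀ e, g e ∈ U hm) : ∃ g' : E → (Tw G)ˣ, (∀ e, g' e ∈ U hm) ∧ D.Kr h g g' := by
  have key : ∀ (s : E → U hm) e,
      In m ((g e).val - 1 - ev K (D.Nl g fun e => (s e).1) (h (sg K e))) := fun s e =>
    In.sub (hg e) (ev_in (fun x _ => D.Nl_m hm hg (fun e => (s e).2) x) (mem_ch_univ _))
  obtain ⟨s, hs⟩ := fixU hm hn (fun s e => unU hm hn _ (key s e)) fun s s' I hI h1 e => by
    simp only [val_unU, add_sub_add_left_eq_sub, sub_sub_sub_cancel_left]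
    rw [← neg_sub, ← ev_sub]
    exact In.neg (ev_in (fun x _ => D.Nl_sub hm hI (fun e => (s e).2) (fun e => (s' e).2)
      (h1 _) (h1 _)) (mem_ch_univ _))
  refine ⟨fun e => (s e).1, fun e => (s e).2, fun e => ?_⟩
  have := congrArg (fun s => (s e).1.val) hs
  simp only [val_unU] at this
  rw [dif, ← this]; abel

variable {D} {h : (E →₀ K) →ₗ[K] T →₀ K}

theorem Kr.ev_dif (k : D.Kr h g g') (c : E →₀ K) :
    ev K (dif g' g) c = -ev K (D.Nl g g') (h c) :=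
  ev_ext (g := -(ev K (D.Nl g g') ∘ₗ h)) (fun e => by rw [ev_sg, k e]; rfl) c

theorem Kr.zero (k : D.Kr h g g') {c : E →₀ K} (hc : h c = 0) : ev K (dif g' g) c = 0 := by
  rw [k.ev_dif, hc, map_zero, neg_zero]

/-- `g'` extends `g` -/
theorem Kr.eq (k : D.Kr h g g') {e : E} (he : h (sg K e) = 0) : g' e = g e :=
  Units.ext (sub_eq_zero.1 (by simpa [dif] using k.zero he))

theorem ev_Nl (D : Ds V E T Q) (g g' : E → (Tw G)ˣ) (c : T →₀ K) :
    ev K (D.Nl g g') c = ev K (D.F g') c - ev K (dif g' g) (D.b2 K c) := by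
  rw [ev_b2, ← ev_sub]; rfl

theorem Kr.curv' (k : D.Kr h g g') (c : T →₀ K) :
    ev K (D.F g') c = ev K (D.Nl g g') (c - h (D.b2 K c)) := by
  rw [map_sub, ev_Nl _ _ _ c, k.ev_dif]; abel

/-- **the curvature only sees the projection to (relative) cycles** -/
theorem Kr.curv (k : D.Kr h g g') {c : T →₀ K} (hc : h (D.b2 K (c - h (D.b2 K c))) = 0) :
    ev K (D.F g') c = ev K (D.F g') (c - h (D.b2 K c)) := by
  rw [k.curv' c, ev_Nl, k.zero hc, sub_zero]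

theorem Kr.map (k : D.Kr h g g') (hφ : G.Hom G' φ) :
    D.Kr h (fun e => um hφ (g e)) fun e => um hφ (g' e) := fun e => by
  rw [dif_um, k e, map_neg, ← ev_um]
  congr 3
  funext x
  simp only [Nl, F_um, d1, dif_um, map_sub, map_add]

theorem Kr.uniq (hm : G.Id m) (hn : IsNilpotent m) (k : D.Kr h g g') (k' : D.Kr h g g'')
    (hg' : ∀ e, g' e ∈ U hm) (hg'' : ∀ e, g'' e ∈ U hm) : g'' = g' := by
  obtain ⟨N, hN⟩ := hn
  have := in_of_retreat hm hN G.id_bot (φ := dif g'' g') (P := fun _ => univ)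
    fun i _ I hI h1 e _ => by
      have e1 : dif g'' g' e = dif g'' g e - dif g' g e := by simp [dif]
      rw [e1, k e, k' e, neg_sub_neg, ← neg_sub, ← ev_sub]
      exact (In.neg (ev_in (fun x _ => D.Nl_sub hm hI hg' hg'' (h1 _ trivial) (h1 _ trivial))
        (mem_ch_univ _))).mono le_sup_right
  funext e
  exact Units.ext (sub_eq_zero.1 (in_bot.1 (this e trivial)))

/-- **control of the correction** by the curvature of `g` (`N` retreats) -/
theorem Kr.dif_in {N : ℕ} (hm : G.Id m) (hN : m ^ N = ⊥) (hJ : G.Id J) (k : D.Kr h g g')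
    (hg : ∀ e, g e ∈ U hm) (hg' : ∀ e, g' e ∈ U hm) {A : ℕ → Set E} {P : ℕ → Set T}
    (hP : ∀ i < N, ∀ x ∈ P i, D.a x ∈ A (i + 1) ∧ D.b x ∈ A (i + 1) ∧ In J (D.F g x))
    (hA : ∀ i < N, ∀ e ∈ A i, h (sg K e) ∈ ch K (P i)) : ∀ e ∈ A 0, In J (dif g' g e) :=
  in_of_retreat hm hN hJ fun i hi I hI h1 e he => by
    rw [k e]
    refine In.neg (ev_in (fun x hx => ?_) (hA i hi e he))
    obtain ⟨k1, k2, k3⟩ := hP i hi x hx
    rw [← add_sub_cancel (D.F g x) (D.Nl g g' x)]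
    exact In.add (k3.mono le_sup_left)
      ((D.Nl_in hm hI hg hg' (h1 _ k1) (h1 _ k2)).mono le_sup_right)

/-- one level: `h` has values in chains of `P` -/
theorem Kr.dif_in1 (hm : G.Id m) (hn : IsNilpotent m) (hJ : G.Id J) (k : D.Kr h g g')
    (hg : ∀ e, g e ∈ U hm) (hg' : ∀ e, g' e ∈ U hm) {P : Set T} (hP : ∀ x ∈ P, In J (D.F g x))
    (hA : ∀ e, h (sg K e) ∈ ch K P) (e : E) : In J (dif g' g e) := by
  obtain ⟨N, hN⟩ := hn
  exact k.dif_in hm hN hJ hg hg' (A := fun _ => univ) (P := fun _ => P)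
    (fun _ _ x hx => ⟨trivial, trivial, hP x hx⟩) (fun _ _ e _ => hA e) e trivial

/-- first order form of the correction -/
theorem Kr.first (hm : G.Id m) (hJ : G.Id J) (k : D.Kr h g g') (hg : ∀ e, g e ∈ U hm)
    (hg' : ∀ e, g' e ∈ U hm) {P : Set T}
    (hP : ∀ x ∈ P, In J (dif g' g (D.a x)) ∧ In J (dif g' g (D.b x))) {c : E →₀ K}
    (hc : h c ∈ ch K P) : In (m * J) (ev K (dif g' g) c + ev K (D.F g) (h c)) := by
  rw [k.ev_dif, neg_add_eq_sub, ← neg_sub, ← ev_sub]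
  exact In.neg (ev_in (fun x hx => D.Nl_in hm hJ hg hg' (hP x hx).1 (hP x hx).2) hc)

/-! ### gauge fixing -/

variable (D)

/-- `γ g' - g` without the coboundary of `γ` -/
def Gl (γ : V → (Tw G)ˣ) (g g' : E → (Tw G)ˣ) (e : E) : Tw G :=
  dif (D.ga γ g') g e + D.d0 (dif γ 1) e

/-- `γ` brings `g'` into the gauge of `g` -/
def Gf (h0 : (V →₀ K) →ₗ[K] E →₀ K) (g g' : E → (Tw G)ˣ) (γ : V → (Tw G)ˣ) : Prop :=
  ∀ v, dif γ 1 v = ev K (D.Gl γ g g') (h0 (sg K v))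

theorem Gl_sub (hm : G.Id m) (hI : G.Id I) (hg' : ∀ e, g' e ∈ U hm) {γ γ' : V → (Tw G)ˣ}
    (hγ : ∀ v, γ v ∈ U hm) (hγ' : ∀ v, γ' v ∈ U hm) {e : E} (h1 : In I (dif γ' γ (D.s e)))
    (h2 : In I (dif γ' γ (D.t e))) : In (m * I) (D.Gl γ' g g' e - D.Gl γ g g' e) := by
  have e1 : D.Gl γ' g g' e - D.Gl γ g g' e =
      dif γ' γ (D.s e) * ((g' e * (γ' (D.t e))⁻¹).val - 1) -
        ((D.ga γ g' e).val - 1) * (dif γ' γ (D.t e) * (γ' (D.t e))⁻¹.val) -
        dif γ' γ (D.t e) * ((γ' (D.t e))⁻¹.val - 1) := by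
    simp only [Gl, d0, dif, ga, Units.val_mul, Pi.one_apply, Units.val_one, sub_mul, mul_sub,
      Units.mul_inv, mul_one, one_mul, mul_assoc, Units.inv_mul_cancel_left]
    abel
  rw [e1]
  exact In.sub (In.sub (in_rm hm hI (mul_mem (hg' e) (inv_mem (hγ' _))) h1)
    (in_lm hm hI (D.ga_U hm hγ hg' e) (mem_right hI _ h2))) (in_rm hm hI (inv_mem (hγ' _)) h2)

theorem Gl_one (g g' : E → (Tw G)ˣ) (e : E) : D.Gl 1 g g' e = dif g' g e := by
  simp [Gl, ga_one, d0, dif]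

theorem Gl_in (hm : G.Id m) (hI : G.Id I) (hg' : ∀ e, g' e ∈ U hm) {γ : V → (Tw G)ˣ}
    (hγ : ∀ v, γ v ∈ U hm) {e : E} (h1 : In I (dif γ 1 (D.s e))) (h2 : In I (dif γ 1 (D.t e))) :
    In (m * I) (D.Gl γ g g' e - dif g' g e) := by
  rw [← D.Gl_one]; exact D.Gl_sub hm hI hg' (fun _ => one_mem _) hγ h1 h2

theorem Gl_m (hm : G.Id m) (hg : ∀ e, g e ∈ U hm) (hg' : ∀ e, g' e ∈ U hm) {γ : V → (Tw G)ˣ}
    (hγ : ∀ v, γ v ∈ U hm) (e : E) : In m (D.Gl γ g g' e) :=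
  In.add (dif_in hm (D.ga_U hm hγ hg' e) (hg e)) (D.d0_in (hγ _) (hγ _))

theorem gf_ex (hm : G.Id m) (hn : IsNilpotent m) (h0 : (V →₀ K) →ₗ[K] E →₀ K)
    (hg : ∀ e, g e ∈ U hm) (hg' : ∀ e, g' e ∈ U hm) :
    ∃ γ : V → (Tw G)ˣ, (∀ v, γ v ∈ U hm) ∧ D.Gf h0 g g' γ := by
  have key : ∀ (s : V → U hm) v, In m (ev K (D.Gl (fun v => (s v).1) g g') (h0 (sg K v))) :=
    fun s v => ev_in (fun e _ => D.Gl_m hm hg hg' (fun e => (s e).2) e) (mem_ch_univ _)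
  obtain ⟨s, hs⟩ := fixU hm hn (fun s v => unU hm hn _ (key s v)) fun s s' I hI h1 v => by
    simp only [val_unU, add_sub_add_left_eq_sub]
    rw [← ev_sub]
    exact ev_in (fun x _ => D.Gl_sub hm hI hg' (fun e => (s e).2) (fun e => (s' e).2)
      (h1 _) (h1 _)) (mem_ch_univ _)
  refine ⟨fun v => (s v).1, fun v => (s v).2, fun v => ?_⟩
  have := congrArg (fun s => (s v).1.val) hs
  simp only [val_unU] at this
  rw [dif, ← this]; simp

variable {D} {h0 : (V →₀ K) →ₗ[K] E →₀ K} {γ : V → (Tw G)ˣ}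

theorem Gf.ev_dif (k : D.Gf h0 g g' γ) (c : V →₀ K) :
    ev K (dif γ 1) c = ev K (D.Gl γ g g') (h0 c) :=
  ev_ext (g := ev K (D.Gl γ g g') ∘ₗ h0) (fun e => by rw [ev_sg, k e]; rfl) c

theorem Gf.zero (k : D.Gf h0 g g' γ) {c : V →₀ K} (hc : h0 c = 0) : ev K (dif γ 1) c = 0 := by
  rw [k.ev_dif, hc, map_zero]

theorem Gf.eq (k : D.Gf h0 g g' γ) {v : V} (hv : h0 (sg K v) = 0) : γ v = 1 :=
  Units.ext (sub_eq_zero.1 (by simpa [dif] using k.zero hv))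

theorem ev_Gl (D : Ds V E T Q) (γ : V → (Tw G)ˣ) (g g' : E → (Tw G)ˣ) (c : E →₀ K) :
    ev K (D.Gl γ g g') c = ev K (dif (D.ga γ g') g) c + ev K (dif γ 1) (D.b1 K c) := by
  rw [ev_b1, ← ev_add]; rfl

theorem Gf.per' (k : D.Gf h0 g g' γ) (c : E →₀ K) :
    ev K (dif (D.ga γ g') g) c = ev K (D.Gl γ g g') (c - h0 (D.b1 K c)) := by
  rw [map_sub, ev_Gl _ _ _ _ c, k.ev_dif]; abel

/-- **the difference only sees the projection to (relative) cycles** -/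
theorem Gf.per (k : D.Gf h0 g g' γ) {c : E →₀ K} (hc : h0 (D.b1 K (c - h0 (D.b1 K c))) = 0) :
    ev K (dif (D.ga γ g') g) c = ev K (dif (D.ga γ g') g) (c - h0 (D.b1 K c)) := by
  rw [k.per' c, ev_Gl, k.zero hc, add_zero]

theorem Gf.map (k : D.Gf h0 g g' γ) (hφ : G.Hom G' φ) :
    D.Gf h0 (fun e => um hφ (g e)) (fun e => um hφ (g' e)) fun v => um hφ (γ v) := fun v => by
  have e1 : ∀ v, dif (fun v => um hφ (γ v)) 1 v = Tw.map hφ (dif γ 1 v) := fun v => by simp [dif]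
  rw [e1, k v, ← ev_um]
  congr 2
  funext x
  simp only [Gl, ga_um, d0, e1, dif_um, map_sub, map_add]

/-- control of the gauge transformation by `g' - g` (`N` retreats) -/
theorem Gf.dif_in {N : ℕ} (hm : G.Id m) (hN : m ^ N = ⊥) (hJ : G.Id J) (k : D.Gf h0 g g' γ)
    (hg' : ∀ e, g' e ∈ U hm) (hγ : ∀ v, γ v ∈ U hm) {B : ℕ → Set V} {A : ℕ → Set E}
    (hA : ∀ i < N, ∀ e ∈ A i, D.s e ∈ B (i + 1) ∧ D.t e ∈ B (i + 1) ∧ In J (dif g' g e))
    (hB : ∀ i < N, ∀ v ∈ B i, h0 (sg K v) ∈ ch K (A i)) : ∀ v ∈ B 0, In J (dif γ 1 v) :=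
  in_of_retreat hm hN hJ fun i hi I hI h1 v hv => by
    rw [k v]
    refine ev_in (fun x hx => ?_) (hB i hi v hv)
    obtain ⟨k1, k2, k3⟩ := hA i hi x hx
    rw [← add_sub_cancel (dif g' g x) (D.Gl γ g g' x)]
    exact In.add (k3.mono le_sup_left)
      ((D.Gl_in hm hI hg' hγ (h1 _ k1) (h1 _ k2)).mono le_sup_right)

/-! ### gluing -/

variable (D)

open Classical in
/-- `g` on the edges of `A`, `g'` elsewhere -/
def _root_.Crest.Agent.N255.Ku.glue {R : Type*} (A : Set E) (g g' : E → R) (e : E) : R :=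
  if e ∈ A then g e else g' e

theorem F_glue_left {A : Set E} {x : T} (h1 : D.a x ∈ A) (h2 : D.b x ∈ A) (h3 : D.c x ∈ A) :
    D.F (glue A g g') x = D.F g x := by simp only [F, glue, if_pos h1, if_pos h2, if_pos h3]

omit D in
theorem dif_glue {A : Set E} {e : E} (h : e ∈ A → In J (dif g g' e)) :
    In J (dif (glue A g g') g' e) := by
  by_cases he : e ∈ A
  · simpa only [dif, glue, if_pos he] using h he
  · simpa only [dif, glue, if_neg he, sub_self] using in_zero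

theorem F_glue_right (hJ : G.Id J) {A : Set E} {x : T} (h1 : D.a x ∈ A → In J (dif g g' (D.a x)))
    (h2 : D.b x ∈ A → In J (dif g g' (D.b x))) (h3 : D.c x ∈ A → In J (dif g g' (D.c x))) :
    In J (D.F (glue A g g') x - D.F g' x) :=
  D.F_sub_in' hJ (dif_glue h1) (dif_glue h2) (dif_glue h3)

omit D in
theorem glue_U (hm : G.Id m) (hg : ∀ e, g e ∈ U hm) (hg' : ∀ e, g' e ∈ U hm) (A : Set E) (e : E) :
    glue A g g' e ∈ U hm := by
  unfold glue; split_ifs; exacts [hg e, hg' e]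

end Ds

end Crest.Agent.N255.Ku

end
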