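import Crest.Agent.N255.Ku.Lin

/-!
# Row 255 (helper21): sections adapted to non nested families, compatible contractions
-/

set_option autoImplicit false

namespace Crest.Agent.N255.Ku

variable {k M M' : Type*} [Field k] [AddCommGroup M] [Module k M] [AddCommGroup M'] [Module k M']

/-- a section adapted to a finite list of subspaces whose images meet only along smaller members -/
theorem exists_sec_gen (f : M →ₗ[k] M') (Q : ℕ → Submodule k M) (n : ℕ)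
    (h : ∀ i < n, (Q i).map f ⊓ (⨆ j < i, Q j).map f ≤ (⨆ j < i, ⨆ _ : Q j ≤ Q i, Q j).map f) :
    ∃ s : M' →ₗ[k] M, (∀ y, s y ∈ ⨆ j < n, Q j) ∧
      ∀ i < n, ∀ x ∈ Q i, s (f x) ∈ Q i ∧ f (s (f x)) = f x := by
  induction n with
  | zero => exact ⟨0, fun _ => zero_mem _, fun i hi => absurd hi (Nat.not_lt_zero i)⟩
  | succ n ih =>
    obtain ⟨s, h1, h2⟩ := ih fun i hi => h i (by omega)
    obtain ⟨t, t1, t2⟩ := exists_sec0 f (Q n)
    set B := (⨆ j < n, Q j).map f with hB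
    let A : ℕ → Submodule k (M') := fun i => if i = 0 then (Q n).map f else ⊤
    have hA : Monotone A := monotone_nat_of_le_succ fun i => by simp [A]
    obtain ⟨u, -, u2⟩ := exists_sec B.mkQ hA 1
    let r : M' →ₗ[k] M' := LinearMap.id - u ∘ₗ B.mkQ
    have r1 : ∀ y, r y ∈ B := fun y => by
      have := (u2 1 le_rfl y (by simp [A])).2
      rw [← Submodule.Quotient.mk_eq_zero, ← Submodule.mkQ_apply]
      simp only [r, LinearMap.sub_apply, LinearMap.id_apply, LinearMap.comp_apply, map_sub, this,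
        sub_self]
    have r2 : ∀ y ∈ B, r y = y := fun y hy => by
      have : B.mkQ y = 0 := (Submodule.Quotient.mk_eq_zero _).2 hy
      simp only [r, LinearMap.sub_apply, LinearMap.id_apply, LinearMap.comp_apply, this, map_zero,
        sub_zero]
    have r3 : ∀ y ∈ (Q n).map f, r y ∈ (Q n).map f := fun y hy =>
      sub_mem hy (by simpa [A] using (u2 0 zero_le_one y (by simpa [A] using hy)).1)
    have l1 : (⨆ j < n, Q j) ≤ ⨆ j < n + 1, Q j :=
      iSup₂_le fun j hj => le_iSup₂_of_le (f := fun j (_ : j < n + 1) => Q j) j (by omega) le_rfl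
    have l2 : Q n ≤ ⨆ j < n + 1, Q j :=
      le_iSup₂_of_le (f := fun j (_ : j < n + 1) => Q j) n (by omega) le_rfl
    refine ⟨s ∘ₗ r + t ∘ₗ (LinearMap.id - r), fun y => add_mem (l1 (h1 _)) (l2 (t1 _)),
      fun i hi x hx => ?_⟩
    rcases (Nat.lt_succ_iff.1 hi).eq_or_lt with rfl | hi
    · obtain ⟨x0, hx0, e⟩ := h i hi ⟨r3 _ ⟨x, hx, rfl⟩, r1 (f x)⟩
      have k1 : x0 ∈ Q i ∧ s (f x0) ∈ Q i ∧ f (s (f x0)) = f x0 := by
        have : (⨆ j < i, ⨆ _ : Q j ≤ Q i, Q j) ≤ Q i ⊓ (Q i).comap (s ∘ₗ f) ⊓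
            LinearMap.ker (f ∘ₗ s ∘ₗ f - f) := iSup₂_le fun j hj => iSup_le fun hq x hx =>
          ⟨⟨hq hx, hq (h2 j hj x hx).1⟩, by simpa [sub_eq_zero] using (h2 j hj x hx).2⟩
        have h3 := this hx0
        exact ⟨h3.1.1, h3.1.2, by simpa [sub_eq_zero] using h3.2⟩
      have e2 : f x - f x0 = f (x - x0) := (map_sub _ _ _).symm
      simp only [LinearMap.add_apply, LinearMap.comp_apply, LinearMap.sub_apply, LinearMap.id_apply,
        map_add, ← e, e2, k1.2.2, t2 _ (sub_mem hx k1.1)]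
      exact ⟨add_mem k1.2.1 (t1 _), by rw [map_sub, add_sub_cancel]⟩
    · have e := r2 (f x) ⟨x, le_iSup₂_of_le (f := fun j (_ : j < n) => Q j) i hi le_rfl hx, rfl⟩
      simpa only [LinearMap.add_apply, LinearMap.comp_apply, LinearMap.sub_apply, LinearMap.id_apply,
        e, sub_self, map_zero, add_zero] using h2 i hi x hx

theorem map_mkQ_le {N A B C : Submodule k M'} (h : (A ⊔ N) ⊓ (B ⊔ N) ≤ C ⊔ N) :
    A.map N.mkQ ⊓ B.map N.mkQ ≤ C.map N.mkQ := by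
  rintro _ ⟨⟨a, ha, rfl⟩, b, hb, e⟩
  have h1 : a - b ∈ N := (Submodule.Quotient.eq N).1 e.symm
  obtain ⟨c, hc, z, hz, e'⟩ := Submodule.mem_sup.1 (h ⟨Submodule.mem_sup_left ha, by
    rw [← add_sub_cancel b a]
    exact add_mem (Submodule.mem_sup_left hb) (Submodule.mem_sup_right h1)⟩)
  exact ⟨c, hc, (Submodule.Quotient.eq N).2 (by rw [← e']; simpa using hz)⟩

/-- **zonewise contraction** relative to `N` -/
theorem exists_hz (d : M →ₗ[k] M') (N : Submodule k M') (Q : ℕ → Submodule k M) (n : ℕ)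
    (h : ∀ i < n, ((Q i).map d ⊔ N) ⊓ ((⨆ j < i, Q j).map d ⊔ N) ≤
      (⨆ j < i, ⨆ _ : Q j ≤ Q i, Q j).map d ⊔ N) :
    ∃ h : M' →ₗ[k] M, (∀ y ∈ N, h y = 0) ∧ (∀ y, h y ∈ ⨆ j < n, Q j) ∧
      ∀ i < n, ∀ c ∈ Q i, h (d c) ∈ Q i ∧ d (c - h (d c)) ∈ N := by
  obtain ⟨s, s1, s2⟩ := exists_sec_gen (N.mkQ ∘ₗ d) Q n fun i hi => by
    simp only [Submodule.map_comp]; exact map_mkQ_le (h i hi)
  refine ⟨s ∘ₗ N.mkQ, fun y hy => ?_, fun y => s1 _, fun i hi c hc => ⟨(s2 i hi c hc).1, ?_⟩⟩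
  · have : N.mkQ y = 0 := (Submodule.Quotient.mk_eq_zero _).2 hy
    simp only [LinearMap.comp_apply, this, map_zero]
  · have := (s2 i hi c hc).2
    simp only [LinearMap.comp_apply] at this ⊢
    rw [← Submodule.Quotient.mk_eq_zero, ← Submodule.mkQ_apply, map_sub, map_sub, this, sub_self]

/-- **compatible contractions** for a decreasing flag `Z 0 ≥ … ≥ Z n` -/
theorem exists_hf (d : M →ₗ[k] M') (N : Submodule k M') {Z : ℕ → Submodule k M} (hZ : Antitone Z)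
    (n : ℕ) : ∃ h : ℕ → M' →ₗ[k] M, ∀ i ≤ n, (∀ y ∈ N, h i y = 0) ∧ (∀ y, h i y ∈ Z i) ∧
      ∀ j ≤ n, i ≤ j → (∀ c ∈ Z j, h i (d c) ∈ Z j ∧ d (c - h i (d c)) ∈ N) ∧
        ∀ y, h i (d (h j y)) = h j y := by
  obtain ⟨s, -, s2⟩ := exists_sec (N.mkQ ∘ₗ d) (P := fun i => Z (n - i))
    (fun a b hab => hZ (by omega)) n
  have s3 : ∀ j ≤ n, ∀ x ∈ Z j, s (N.mkQ (d x)) ∈ Z j ∧ N.mkQ (d (s (N.mkQ (d x)))) = N.mkQ (d x) :=
    fun j hj => by simpa only [Nat.sub_sub_self hj, LinearMap.comp_apply] using s2 (n - j) (by omega)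
  choose C hC using fun i => ((Z i).map (N.mkQ ∘ₗ d)).exists_isCompl
  let r : ℕ → (M' ⧸ N) →ₗ[k] M' ⧸ N := fun i =>
    ((Z i).map (N.mkQ ∘ₗ d)).subtype ∘ₗ ((Z i).map (N.mkQ ∘ₗ d)).projectionOnto (C i) (hC i)
  have r1 : ∀ i y, r i y ∈ (Z i).map (N.mkQ ∘ₗ d) := fun i y =>
    (((Z i).map (N.mkQ ∘ₗ d)).projectionOnto (C i) (hC i) y).2
  have r2 : ∀ i, ∀ x ∈ Z i, r i (N.mkQ (d x)) = N.mkQ (d x) := fun i x hx =>
    congrArg Subtype.val (Submodule.projectionOnto_apply_left (hC i) ⟨_, x, hx, rfl⟩)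
  refine ⟨fun i => s ∘ₗ r i ∘ₗ N.mkQ, fun i hi => ⟨fun y hy => ?_, fun y => ?_, fun j hj hij =>
    ⟨fun c hc => ?_, fun y => ?_⟩⟩⟩
  · have : N.mkQ y = 0 := (Submodule.Quotient.mk_eq_zero _).2 hy
    simp only [LinearMap.comp_apply, this, map_zero]
  · obtain ⟨x, hx, e⟩ := r1 i (N.mkQ y)
    simp only [LinearMap.comp_apply, ← e]
    exact (s3 i hi x hx).1
  · simp only [LinearMap.comp_apply, r2 i c (hZ hij hc)]
    refine ⟨(s3 j hj c hc).1, ?_⟩
    rw [← Submodule.Quotient.mk_eq_zero, ← Submodule.mkQ_apply, map_sub, map_sub, (s3 j hj c hc).2,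
      sub_self]
  · obtain ⟨x, hx, e⟩ := r1 j (N.mkQ y)
    simp only [LinearMap.comp_apply, ← e, (s3 j hj x hx).2, r2 i x (hZ hij hx)]

end Crest.Agent.N255.Ku
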