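import Crest.Agent.N255.Ku.Msc
import Crest.Agent.N255.Dr.Lu

/-!
# Row 255 (helper21): Kuranishi families and gauge fixing with one contraction per monomial
-/

set_option autoImplicit false
open Set

noncomputable section

namespace Crest.Agent.N255.Ku

open Cs Cs.Tw Tp Tg _root_.N255.Dr _root_.N255.Dr.O

section abs

variable {p : ℕ} [Fact p.Prime] {K O : Type*} [CommRing K] [CommRing O] [Algebra K O]
  {G : Gr (Gm p) K O} {m : Ideal O} {S : Type*}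

/-- nilpotent fixed point theorem, `m`-adic form -/
theorem fixP (hm : G.Id m) (hn : IsNilpotent m) (Φ : (S → U hm) → S → U hm)
    (hΦ : ∀ s s' k, (∀ i, In (m ^ k) ((s' i).1.val - (s i).1.val)) →
      ∀ i, In (m ^ (k + 1)) ((Φ s' i).1.val - (Φ s i).1.val)) : ∃ s, Φ s = s := by
  obtain ⟨N, hN⟩ := hn
  have key : ∀ k i, In (m ^ k) ((Φ^[k + 1] 1 i).1.val - (Φ^[k] 1 i).1.val) := fun k => by
    induction k with
    | zero => simp [In]
    | succ k ih =>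
      have := hΦ _ _ _ ih
      rwa [← Function.iterate_succ_apply' Φ, ← Function.iterate_succ_apply' Φ] at this
  refine ⟨Φ^[N] 1, funext fun i => Subtype.ext (Units.ext ?_)⟩
  have := key N i
  rw [hN, Function.iterate_succ_apply'] at this
  exact sub_eq_zero.1 (in_bot.1 this)

end abs

variable {p : ℕ} [Fact p.Prime] {K σ : Type} [Fintype σ]

section ring

variable [CommRing K] {G : Gr (Gm p) K (O p K σ)}

/-- coefficients of elements of the twisted ring -/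
def ct (G : Gr (Gm p) K (O p K σ)) (a : σ → ℕ) : Tw G →ₗ[K] K := cf a ∘ₗ (o G).toLinearMap

theorem ct_apply (a : σ → ℕ) (x : Tw G) : ct G a x = cf a (o G x) := rfl

theorem ct_ext {x y : Tw G} (h : ∀ a, ct G a x = ct G a y) : x = y :=
  (o G).injective (ext_cf fun a _ => h a)

open Classical in
/-- the element whose coefficient at `a` is that of `x a` -/
def dg (G : Gr (Gm p) K (O p K σ)) (x : (σ → ℕ) → Tw G) : Tw G :=
  up G (∑ a ∈ box p σ, ct G a (x a) • zm a)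

theorem ct_dg (x : (σ → ℕ) → Tw G) (a : σ → ℕ) : ct G a (dg G x) = ct G a (x a) := by
  classical
  change cf a (∑ a ∈ box p σ, ct G a (x a) • zm a) = _
  simp only [map_sum, map_smul, cf_zm, smul_eq_mul, mul_ite, mul_one, mul_zero]
  by_cases h : ∀ i, a i < p
  · rw [Finset.sum_eq_single a (fun b _ hb => if_neg fun e => hb e.1.symm)
      fun h1 => absurd (by convert mem_box.2 h) h1, if_pos ⟨rfl, h⟩]
  · rw [ct_apply, cf_of_not h]
    exact Finset.sum_eq_zero fun b _ => if_neg fun e => h e.2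

theorem in_pow_iff {k : ℕ} {x : Tw G} : In (mx ^ k) x ↔ ∀ a, ∑ i, a i < k → ct G a x = 0 :=
  ⟨fun h _ => cf_eq_zero_of_mem_pow h, mem_pow_of_cf⟩

theorem fix_mon {S : Type*} (hm : G.Id mx) (Ψ : (S → U hm) → S → (σ → ℕ) → Tw G)
    (h1 : ∀ s i a, In mx (Ψ s i a)) (h2 : ∀ s s' I, G.Id I →
      (∀ i, In I ((s' i).1.val - (s i).1.val)) → ∀ i a, In (mx * I) (Ψ s' i a - Ψ s i a)) :
    ∃ s : S → U hm, ∀ i a, ct G a ((s i).1.val - 1) = ct G a (Ψ s i a) := by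
  have key : ∀ s i, In mx (dg G (Ψ s i)) := fun s i => by
    rw [← pow_one mx, in_pow_iff]
    intro a ha
    rw [ct_dg]
    exact in_pow_iff.1 (by rw [pow_one]; exact h1 s i a) a ha
  obtain ⟨s, hs⟩ := fixP hm mx_nil (fun s i => unU hm mx_nil _ (key s i)) fun s s' k h i => by
    simp only [val_unU, add_sub_add_left_eq_sub]
    refine in_pow_iff.2 fun a ha => ?_
    rw [map_sub, ct_dg, ct_dg, ← map_sub]
    exact in_pow_iff.1 (by rw [pow_succ']; exact h2 s s' _ (hm.pow k) h i a) a ha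
  refine ⟨s, fun i a => ?_⟩
  have := congrArg (fun s => (s i).1.val) hs
  simp only [val_unU] at this
  rw [← this, add_sub_cancel_left, ct_dg]

namespace Ds

variable {V E T Q : Type*} (D : Ds V E T Q) {g g' g'' : E → (Tw G)ˣ}

/-- Kuranishi correction with the contraction `h a` for the monomial `a` -/
def Km (h : (σ → ℕ) → (E →₀ K) →ₗ[K] T →₀ K) (g g' : E → (Tw G)ˣ) : Prop :=
  ∀ e a, ct G a (Ku.dif g' g e) = -ct G a (Ku.ev K (D.Nl g g') (h a (Ku.sg K e)))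

theorem km_ex (hm : G.Id mx) (h : (σ → ℕ) → (E →₀ K) →ₗ[K] T →₀ K) (hg : ∀ e, g e ∈ U hm) :
    ∃ g' : E → (Tw G)ˣ, (∀ e, g' e ∈ U hm) ∧ D.Km h g g' := by
  obtain ⟨s, hs⟩ := fix_mon hm
    (fun s e a => (g e).val - 1 - Ku.ev K (D.Nl g fun e => (s e).1) (h a (Ku.sg K e)))
    (fun s e a => In.sub (hg e) (ev_in (fun x _ => D.Nl_m hm hg (fun e => (s e).2) x)
      (Ku.mem_ch_univ _))) fun s s' I hI h1 e a => by
      rw [sub_sub_sub_cancel_left, ← neg_sub, ← Ku.ev_sub]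
      exact In.neg (ev_in (fun x _ => D.Nl_sub hm hI (fun e => (s e).2) (fun e => (s' e).2)
        (h1 _) (h1 _)) (Ku.mem_ch_univ _))
  refine ⟨fun e => (s e).1, fun e => (s e).2, fun e a => ?_⟩
  have := hs e a
  simp only [map_sub] at this
  rw [Ku.dif, map_sub]
  linear_combination this

variable {D} {h : (σ → ℕ) → (E →₀ K) →ₗ[K] T →₀ K}

theorem Km.ev_dif (k : D.Km h g g') (a : σ → ℕ) (c : E →₀ K) :
    ct G a (Ku.ev K (Ku.dif g' g) c) = -ct G a (Ku.ev K (D.Nl g g') (h a c)) :=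
  ev_ext (f := ct G a ∘ₗ Ku.ev K (Ku.dif g' g)) (g := -(ct G a ∘ₗ Ku.ev K (D.Nl g g') ∘ₗ h a))
    (fun e => by rw [LinearMap.comp_apply, Ku.ev_sg, k e]; rfl) c

theorem Km.zero (k : D.Km h g g') {c : E →₀ K} (hc : ∀ a, h a c = 0) :
    Ku.ev K (Ku.dif g' g) c = 0 := ct_ext fun a => by simp only [k.ev_dif, hc, map_zero, neg_zero]

theorem Km.curv' (k : D.Km h g g') (a : σ → ℕ) (c : T →₀ K) : ct G a (Ku.ev K (D.F g') c) =
    ct G a (Ku.ev K (D.Nl g g') (c - h a (D.b2 K c))) := by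
  rw [map_sub, map_sub, ev_Nl _ _ _ c, map_sub, k.ev_dif]; abel

theorem Km.curv (k : D.Km h g g') (a : σ → ℕ) {c : T →₀ K}
    (hc : ∀ b, h b (D.b2 K (c - h a (D.b2 K c))) = 0) :
    ct G a (Ku.ev K (D.F g') c) = ct G a (Ku.ev K (D.F g') (c - h a (D.b2 K c))) := by
  rw [k.curv' a c, ev_Nl, k.zero hc, sub_zero]

/-- comparison with an arbitrary third connection `g0` -/
theorem Km.cmp (k : D.Km h g g') (g0 : E → (Tw G)ˣ) (a : σ → ℕ) (c : E →₀ K) :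
    ct G a (Ku.ev K (Ku.dif g' g) c) = -ct G a (Ku.ev K (D.F g0) (h a c))
      - ct G a (Ku.ev K (Ku.dif g g0) (D.b2 K (h a c)))
      - ct G a (Ku.ev K (fun x => D.Nl g0 g' x - D.F g0 x) (h a c)) := by
  have : ∀ x, D.Nl g g' x = D.F g0 x + D.d1 (Ku.dif g g0) x + (D.Nl g0 g' x - D.F g0 x) := fun x => by
    simp only [Nl, d1, Ku.dif]; abel
  rw [k.ev_dif, funext this, Ku.ev_add, Ku.ev_add, ev_b2, map_add, map_add]; abel

omit [Fintype σ] in
/-- the nonlinear term of `Km.cmp` -/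
theorem nl_in (D : Ds V E T Q) {m I : Ideal (O p K σ)} (hm : G.Id m) (hI : G.Id I)
    (hg : ∀ e, g e ∈ U hm) (hg' : ∀ e, g' e ∈ U hm) {P : Set T}
    (hP : ∀ x ∈ P, In I (Ku.dif g' g (D.a x)) ∧ In I (Ku.dif g' g (D.b x))) {c : T →₀ K}
    (hc : c ∈ ch K P) : In (m * I) (Ku.ev K (fun x => D.Nl g g' x - D.F g x) c) :=
  ev_in (fun x hx => D.Nl_in hm hI hg hg' (hP x hx).1 (hP x hx).2) hc

theorem Km.uniq (hm : G.Id mx) (k : D.Km h g g') (k' : D.Km h g g'') (hg' : ∀ e, g' e ∈ U hm)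
    (hg'' : ∀ e, g'' e ∈ U hm) : g'' = g' := by
  have key : ∀ n e, In (mx ^ n) (Ku.dif g'' g' e) := fun n => by
    induction n with
    | zero => simp [In]
    | succ n ih =>
      refine fun e => in_pow_iff.2 fun a ha => ?_
      have e1 : Ku.dif g'' g' e = Ku.dif g'' g e - Ku.dif g' g e := by simp [Ku.dif]
      rw [e1, map_sub, k e, k' e, neg_sub_neg, ← neg_sub, ← map_sub, ← Ku.ev_sub, neg_eq_zero]
      refine in_pow_iff.1 ?_ a ha
      rw [pow_succ']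
      exact ev_in (fun x _ => D.Nl_sub hm (hm.pow n) hg' hg'' (ih _) (ih _)) (Ku.mem_ch_univ _)
  obtain ⟨n, hn⟩ := (mx_nil : IsNilpotent (mx : Ideal (O p K σ)))
  funext e
  have := key n e
  rw [hn] at this
  exact Units.ext (sub_eq_zero.1 (in_bot.1 this))

variable (D)

/-- gauge fixing with the contraction `h0 a` for the monomial `a` -/
def Gn (h0 : (σ → ℕ) → (V →₀ K) →ₗ[K] E →₀ K) (g g' : E → (Tw G)ˣ) (γ : V → (Tw G)ˣ) : Prop :=
  ∀ v a, ct G a (Ku.dif γ 1 v) = ct G a (Ku.ev K (D.Gl γ g g') (h0 a (Ku.sg K v)))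

theorem gn_ex (hm : G.Id mx) (h0 : (σ → ℕ) → (V →₀ K) →ₗ[K] E →₀ K) (hg : ∀ e, g e ∈ U hm)
    (hg' : ∀ e, g' e ∈ U hm) : ∃ γ : V → (Tw G)ˣ, (∀ v, γ v ∈ U hm) ∧ D.Gn h0 g g' γ := by
  obtain ⟨s, hs⟩ := fix_mon hm
    (fun s v a => Ku.ev K (D.Gl (fun v => (s v).1) g g') (h0 a (Ku.sg K v)))
    (fun s v a => ev_in (fun e _ => D.Gl_m hm hg hg' (fun e => (s e).2) e) (Ku.mem_ch_univ _))
    fun s s' I hI h1 v a => by
      rw [← Ku.ev_sub]
      exact ev_in (fun x _ => D.Gl_sub hm hI hg' (fun e => (s e).2) (fun e => (s' e).2)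
        (h1 _) (h1 _)) (Ku.mem_ch_univ _)
  exact ⟨fun v => (s v).1, fun v => (s v).2, hs⟩

variable {D} {h0 : (σ → ℕ) → (V →₀ K) →ₗ[K] E →₀ K} {γ : V → (Tw G)ˣ}

theorem Gn.ev_dif (k : D.Gn h0 g g' γ) (a : σ → ℕ) (c : V →₀ K) :
    ct G a (Ku.ev K (Ku.dif γ 1) c) = ct G a (Ku.ev K (D.Gl γ g g') (h0 a c)) :=
  ev_ext (f := ct G a ∘ₗ Ku.ev K (Ku.dif γ 1)) (g := ct G a ∘ₗ Ku.ev K (D.Gl γ g g') ∘ₗ h0 a)
    (fun e => by rw [LinearMap.comp_apply, Ku.ev_sg, k e]; rfl) c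

theorem Gn.zero (k : D.Gn h0 g g' γ) {c : V →₀ K} (hc : ∀ a, h0 a c = 0) :
    Ku.ev K (Ku.dif γ 1) c = 0 := ct_ext fun a => by simp only [k.ev_dif, hc, map_zero]

theorem Gn.per' (k : D.Gn h0 g g' γ) (a : σ → ℕ) (c : E →₀ K) :
    ct G a (Ku.ev K (Ku.dif (D.ga γ g') g) c) =
      ct G a (Ku.ev K (D.Gl γ g g') (c - h0 a (D.b1 K c))) := by
  rw [map_sub, map_sub, ev_Gl _ _ _ _ c, map_add, k.ev_dif]; abel

theorem Gn.per (k : D.Gn h0 g g' γ) (a : σ → ℕ) {c : E →₀ K}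
    (hc : ∀ b, h0 b (D.b1 K (c - h0 a (D.b1 K c))) = 0) :
    ct G a (Ku.ev K (Ku.dif (D.ga γ g') g) c) =
      ct G a (Ku.ev K (Ku.dif (D.ga γ g') g) (c - h0 a (D.b1 K c))) := by
  rw [k.per' a c, ev_Gl, k.zero hc, add_zero]

end Ds

end ring

variable [Field K] {G : Gr (Gm p) K (O p K σ)} {X : Type} [TopologicalSpace X] {l : ℕ}

/-- `s` inverts the boundary of `Q` modulo `N` inside `Q` -/
def Sec (N : Submodule K (Ch K l X)) (s : Ch K l X →ₗ[K] Ch K (l + 1) X) (Q : Sb X) : Prop :=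
  ∀ c ∈ Q.ch K (l + 1), s (bd K c) ∈ Q.ch K (l + 1) ∧ bd K (c - s (bd K c)) ∈ N

variable {N N' : Submodule K (Ch K l X)} {s : Ch K l X →ₗ[K] Ch K (l + 1) X} {Q Q' : Sb X}

theorem Sec.sup (h : Sec N s Q) (h' : Sec N s Q') : Sec N s (Q.sup Q') := fun c hc => by
  rw [Sb.ch_sup] at hc ⊢
  obtain ⟨a, ha, b, hb, rfl⟩ := Submodule.mem_sup.1 hc
  refine ⟨?_, ?_⟩
  · rw [map_add, map_add]
    exact add_mem (Submodule.mem_sup_left (h a ha).1) (Submodule.mem_sup_right (h' b hb).1)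
  · rw [map_add (bd K) a, map_add s, add_sub_add_comm, map_add]
    exact add_mem (h a ha).2 (h' b hb).2

/-- one section for all zones of a list -/
theorem exists_secz (N : Submodule K (Ch K l X)) (Q : ℕ → Sb X) (n : ℕ)
    (hQ : ∀ i < n, ((Q i).B K l ⊔ N) ⊓ ((⨆ j < i, (Q j).ch K (l + 1)).map (bd K) ⊔ N) ≤
      (⨆ j < i, ⨆ _ : (Q j).ch K (l + 1) ≤ (Q i).ch K (l + 1), (Q j).ch K (l + 1)).map (bd K) ⊔ N) :
    ∃ s : Ch K l X →ₗ[K] Ch K (l + 1) X, (∀ y ∈ N, s y = 0) ∧ ∀ i < n, Sec N s (Q i) := by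
  obtain ⟨s, h1, -, h3⟩ := exists_hz (bd K) N (fun i => (Q i).ch K (l + 1)) n hQ
  exact ⟨s, h1, h3⟩

/-- contractions relative to a larger `N'` with values in the image of a given section -/
theorem exists_rel (hN : N ≤ N') {P : ℕ → Sb X} (hP : ∀ i, (P i).Le (P (i + 1))) (n : ℕ)
    (hs : ∀ i ≤ n, Sec N s (P i)) :
    ∃ h, Ctr N' P n h ∧ ∀ y, ∃ c ∈ (P n).ch K (l + 1), h y = s (bd K c) := by
  obtain ⟨r, h1, h2, h3, -, -, h6⟩ := exists_h LinearMap.id N' (P := fun i => (P i).B K l)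
    (monotone_nat_of_le_succ fun i => Sb.B_mono (hP i)) (A := fun i => (P i).ch K l)
    (monotone_nat_of_le_succ fun i => Sb.ch_mono (hP i)) n
  have key : ∀ i ≤ n, ∀ y, r y ∈ (P i).B K l → s (r y) ∈ (P i).ch K (l + 1) := by
    rintro i hi y ⟨c, hc, e⟩
    rw [← e]; exact (hs i hi c hc).1
  refine ⟨s ∘ₗ r, ⟨fun y hy => by simp [h1 y hy], fun y => key n le_rfl y (h2 y), fun i hi c hc => ?_,
    fun i hi j hj h y hy => key j hj y (h6 i hi j hj (by simpa using h) y hy)⟩, fun y => ?_⟩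
  · obtain ⟨⟨c', hc', e⟩, k2⟩ := h3 i hi _ (Sb.bd_mem_B hc)
    simp only [LinearMap.id_apply, LinearMap.comp_apply] at e k2 ⊢
    rw [← e] at k2 ⊢
    refine ⟨(hs i hi c' hc').1, ?_⟩
    convert add_mem k2 (hN (hs i hi c' hc').2) using 1
    simp only [map_sub]; abel
  · obtain ⟨c, hc, e⟩ := h2 y
    exact ⟨c, hc, by rw [LinearMap.comp_apply, e]⟩

variable {g g' : Cn G X} {M : Submodule K (Ch K 1 X)} {h : (σ → ℕ) → Ch K 1 X →ₗ[K] Ch K 2 X}

/-- **normal form**: the coefficient of `a` of the curvature vanishes on `h a (∂ c)` -/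
theorem Ds.Km.cur (k : (sD X).Km h g g') (hM : ∀ a, ∀ y ∈ M, h a y = 0) (a : σ → ℕ) {c : Ch K 2 X}
    (hc : bd K (c - h a (bd K c)) ∈ M) : ct G a (Tp.ev K (cur g') (h a (bd K c))) = 0 := by
  have := k.curv a (c := c) fun b => by rw [sD_b2]; exact hM b _ hc
  rw [sD_b2, map_sub, map_sub] at this
  exact sub_eq_self.1 this.symm

/-- `RCm` from the normal form: the monomials that do not live on `Q` lie in `J` -/
theorem rcm_of_ct {φ : Co (Tw G) (l + 1) X} {J : Ideal (O p K σ)} (hs : Sec N s Q)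
    (h : ∀ c ∈ Q.ch K (l + 1), ∀ a, ct G a (Tp.ev K φ (s (bd K c))) ≠ 0 → zm a ∈ J) :
    RCm J N Q φ := fun c hc => by
  classical
  refine ⟨_, sub_mem hc (hs c hc).1, (hs c hc).2, ?_⟩
  rw [map_sub, sub_sub_cancel, In, ← sum_cf (o G _)]
  refine sum_mem fun a _ => ?_
  by_cases h1 : ct G a (Tp.ev K φ (s (bd K c))) = 0
  · rw [← ct_apply, h1, zero_smul]; exact zero_mem _
  · exact Submodule.smul_of_tower_mem _ _ (h c hc a h1)

end Crest.Agent.N255.Ku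

end
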