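import Crest.Agent.N255.Ku.Vers
import Crest.Agent.N255.Ku.Lin2

/-!
# Row 255 (helper21): multi-scale and zonewise Kuranishi families
-/

set_option autoImplicit false
open Set

noncomputable section

namespace Crest.Agent.N255.Ku

open Cs Cs.Tw Tp

variable {p : ℕ} [Fact p.Prime] {K O : Type} [CommRing O] [Field K] [Algebra K O]
  {G : Gr (Gm p) K O} {m I J : Ideal O} {X : Type} [TopologicalSpace X] {g g' g1 : Cn G X} {l : ℕ}

/-- `RC` modulo `M` -/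
def RCm (M : Ideal O) (N : Submodule K (Ch K l X)) (P : Sb X) (φ : Co (Tw G) (l + 1) X) : Prop :=
  ∀ c ∈ P.ch K (l + 1), ∃ c' ∈ P.ch K (l + 1), bd K c' ∈ N ∧ In M (Tp.ev K φ c - Tp.ev K φ c')

section

variable {M M' : Ideal O} {N : Submodule K (Ch K l X)} {Q Q' : Sb X} {φ ψ : Co (Tw G) (l + 1) X}

theorem RC.rcm (h : RC N Q φ) (M : Ideal O) : RCm M N Q φ := fun c hc => by
  obtain ⟨c', h1, h2, h3⟩ := h c hc
  exact ⟨c', h1, h2, by rw [h3, sub_self]; exact in_zero⟩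

theorem RCm.mono (h : RCm M N Q φ) (hM : M ≤ M') : RCm M' N Q φ := fun c hc => by
  obtain ⟨c', h1, h2, h3⟩ := h c hc
  exact ⟨c', h1, h2, h3.mono hM⟩

theorem RCm.congr (h : RCm M N Q φ) (e : CI Q M (ψ - φ)) : RCm M N Q ψ := fun c hc => by
  obtain ⟨c', h1, h2, h3⟩ := h c hc
  refine ⟨c', h1, h2, ?_⟩
  have := In.add h3 (In.sub (e.ev hc) (e.ev h1))
  simp only [Tp.ev_sub] at this
  convert this using 1
  abel

theorem RCm.step (h : RCm J N Q φ) {Z : Submodule K (Ch K (l + 1) X)}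
    (hZ : ∀ z ∈ Z, In J (Tp.ev K φ z))
    (hH : ∀ c ∈ Q.ch K (l + 1), bd K c ∈ N → c ∈ Z ⊔ Q'.B K (l + 1)) :
    ∀ σ ∈ Q.S (l + 1), ∃ b ∈ Q'.B K (l + 1), In J (φ σ - Tp.ev K φ b) := fun σ hσ => by
  obtain ⟨c, hc, h1, h2⟩ := h _ (Sb.sg_mem hσ)
  obtain ⟨z, hz, b, hb, rfl⟩ := Submodule.mem_sup.1 (hH c hc h1)
  refine ⟨b, hb, ?_⟩
  have := In.add h2 (hZ z hz)
  rw [Tp.ev_sg, map_add] at this
  convert this using 1
  abel

theorem RCm.map (h : RCm M N Q φ) {O' : Type} [CommRing O'] [Algebra K O'] {G' : Gr (Gm p) K O'}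
    {f : O →ₐ[K] O'} (hf : G.Hom G' f) {M' : Ideal O'} (hM : ∀ x ∈ M, f x ∈ M')
    {φ' : Co (Tw G') (l + 1) X} (e : ∀ σ, φ' σ = Tw.map hf (φ σ)) : RCm M' N Q φ' := fun c hc => by
  obtain ⟨c', h1, h2, h3⟩ := h c hc
  obtain rfl : φ' = fun σ => Tw.map hf (φ σ) := funext e
  refine ⟨c', h1, h2, ?_⟩
  have e1 : ∀ c, Tp.ev K (fun σ => Tw.map hf (φ σ)) c = Tw.map hf (Tp.ev K φ c) := ev_um hf φ
  rw [e1, e1, ← map_sub]
  exact hM _ h3

end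

variable {N : Submodule K (Ch K 1 X)} {N0 : Submodule K (Ch K 0 X)} {Q Q' : Sb X}

/-- one retreat for the curvature -/
theorem RCm.cur {hm : G.Id m} (r : RCm J N Q (cur g)) (hI : G.Id I) (h : CU Q' hm g)
    (f : CI Q' I (cur g)) {Z : Submodule K (Ch K 2 X)} (hZ : ∀ z ∈ Z, In J (Tp.ev K (cur g) z))
    (hH : ∀ c ∈ Q.ch K 2, bd K c ∈ N → c ∈ Z ⊔ Q'.B K 2) : CI Q (J ⊔ m * I) (cur g) :=
  cur_step hI h f (r.step hZ hH)

/-- one retreat for a difference -/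
theorem RCm.dif {hm : G.Id m} (r : RCm J N0 Q (Cs.dif g' g)) (hI : G.Id I)
    (h : CU Q' hm g) (h' : CU Q' hm g') (f : CI Q' I (Cs.dif g' g))
    (hF : CI Q' J (Cs.cur g' - Cs.cur g)) {Z : Submodule K (Ch K 1 X)}
    (hZ : ∀ z ∈ Z, In J (Tp.ev K (Cs.dif g' g) z))
    (hH : ∀ c ∈ Q.ch K 1, bd K c ∈ N0 → c ∈ Z ⊔ Q'.B K 1) : CI Q (J ⊔ m * I) (Cs.dif g' g) :=
  dif_step hI h h' f hF (r.step hZ hH)

/-- **zonewise Kuranishi**: the zones `Q i` are listed so that boundaries of a zone meet boundaries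
of earlier zones only along earlier subzones -/
theorem kur_z (hm : G.Id m) (hn : IsNilpotent m) (N : Submodule K (Ch K 1 X)) (Q : ℕ → Sb X) (n : ℕ)
    (hQ : ∀ i < n, ((Q i).B K 1 ⊔ N) ⊓ ((⨆ j < i, (Q j).ch K 2).map (bd K) ⊔ N) ≤
      (⨆ j < i, ⨆ _ : (Q j).ch K 2 ≤ (Q i).ch K 2, (Q j).ch K 2).map (bd K) ⊔ N)
    (hg : ∀ σ, g σ ∈ U hm) :
    ∃ g' : Cn G X, (∀ σ, g' σ ∈ U hm) ∧ (∀ c ∈ N, Tp.ev K (Cs.dif g' g) c = 0) ∧
      (∀ J, G.Id J → (∀ i < n, CI (Q i) J (cur g)) → ∀ σ, In J (Cs.dif g' g σ)) ∧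
      ∀ i < n, RC N (Q i) (cur g') := by
  obtain ⟨h, h1, h2, h3⟩ := exists_hz (bd K) N (fun i => (Q i).ch K 2) n hQ
  obtain ⟨g', k1, k⟩ := (sD X).ku_ex hm hn h hg
  refine ⟨g', k1, fun y hy => k.zero (h1 y hy), fun J hJ f =>
    k.dif_in1 hm hn hJ hg k1 (P := ⋃ i < n, (Q i).S 2) (fun x hx => ?_) fun e => ?_,
    fun i hi x hx => ⟨_, sub_mem hx (h3 i hi x hx).1, (h3 i hi x hx).2, ?_⟩⟩
  · obtain ⟨i, hi, hx⟩ := mem_iUnion₂.1 hx
    exact f i hi x hx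
  · exact (iSup₂_le fun i hi => Finsupp.supported_mono
      (subset_iUnion₂_of_subset (t := fun i (_ : i < n) => (Q i).S 2) i hi subset_rfl) :
        (⨆ j < n, (Q j).ch K 2) ≤ _) (h2 _)
  · have := k.curv (c := x) (by rw [sD_b2]; exact h1 _ (h3 i hi x hx).2)
    rwa [sD_b2] at this

/-- the correction of a perturbation of a fixed point -/
theorem Ds.Kr.pert {V E T Q : Type*} {D : Ds V E T Q} {h : (E →₀ K) →ₗ[K] T →₀ K}
    {g g1 g' : E → (Tw G)ˣ} (hm : G.Id m) (hn : IsNilpotent m) {M : Ideal O} (hM : G.Id M)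
    (hJ : G.Id J) (k : D.Kr h g1 g') (hg : ∀ e, g e ∈ U hm) (hg' : ∀ e, g' e ∈ U hm)
    (h0 : ∀ e, Ku.ev K (D.F g) (h (Ku.sg K e)) = 0) (h1 : ∀ e, In M (Ku.dif g1 g e)) {P : Set T}
    (hP : ∀ e, h (Ku.sg K e) ∈ ch K P) (h2 : ∀ x ∈ P, In J (D.d1 (Ku.dif g1 g) x)) (e : E) :
    In (J ⊔ m * M) (Ku.dif g' g1 e) := by
  have key : ∀ I, G.Id I → (∀ e, In I (Ku.dif g' g e)) → ∀ e, In (J ⊔ m * I) (Ku.dif g' g1 e) :=
    fun I hI h3 e => by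
      rw [k e, ← sub_zero (Ku.ev K _ _), ← h0 e, ← Ku.ev_sub]
      refine In.neg (ev_in (fun x hx => ?_) (hP e))
      have := In.add ((D.F_sub_in hm hI hg hg' (x := x) (h3 _) (h3 _)).mono (le_sup_right (a := J)))
        ((h2 x hx).mono le_sup_left)
      convert this using 1
      simp only [Ds.Nl, Ds.d1, Ku.dif]; abel
  have e1 : ∀ e, Ku.dif g' g e = Ku.dif g' g1 e + Ku.dif g1 g e := fun e => by simp [Ku.dif]
  obtain ⟨n, hn⟩ := hn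
  have h4 := in_of_retreat hm hn (hJ.sup hM) (φ := Ku.dif g' g) (P := fun _ => univ)
    fun _ _ I hI h3 e _ => by
      rw [e1]
      exact In.add ((key I hI (fun e => h3 e trivial) e).mono (sup_le_sup_right le_sup_left _))
        ((h1 e).mono (le_sup_right.trans le_sup_left))
  refine (key _ (hJ.sup hM) (fun e => h4 e trivial) e).mono (sup_le le_sup_left ?_)
  rw [Ideal.mul_sup]
  exact sup_le_sup_right Ideal.mul_le_right _

/-- the state after scale `i` of a multi-scale construction on `Z 0 ≥ … ≥ Z n` -/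
structure Ms {m : Ideal O} (hm : G.Id m) (N : Submodule K (Ch K 1 X)) (Z : ℕ → Sb X) (n : ℕ)
    (h : ℕ → Ch K 1 X →ₗ[K] Ch K 2 X) (i : ℕ) (g : Cn G X) : Prop where
  mem : ∀ σ, g σ ∈ U hm
  rc : ∀ j ≤ n, i ≤ j → RC N (Z j) (cur g)
  fix : ∀ j ≤ n, i ≤ j → ∀ y, Tp.ev K (cur g) (h j y) = 0

/-- compatible contractions -/
def Cf (N : Submodule K (Ch K 1 X)) (Z : ℕ → Sb X) (n : ℕ) (h : ℕ → Ch K 1 X →ₗ[K] Ch K 2 X) : Prop :=
  ∀ i ≤ n, (∀ y ∈ N, h i y = 0) ∧ (∀ y, h i y ∈ (Z i).ch K 2) ∧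
    ∀ j ≤ n, i ≤ j → (∀ c ∈ (Z j).ch K 2, h i (bd K c) ∈ (Z j).ch K 2 ∧ bd K (c - h i (bd K c)) ∈ N) ∧
      ∀ y, h i (bd K (h j y)) = h j y

variable {Z : ℕ → Sb X} {n i : ℕ} {h : ℕ → Ch K 1 X →ₗ[K] Ch K 2 X}

theorem exists_cf (N : Submodule K (Ch K 1 X)) (hZ : ∀ i, (Z (i + 1)).Le (Z i)) (n : ℕ) :
    ∃ h, Cf N Z n h :=
  exists_hf (bd K) N (antitone_nat_of_succ_le fun i => Sb.ch_mono (hZ i)) n

theorem Cf.ms {hm : G.Id m} (c : Cf N Z n h) (hi : i ≤ n) (k : (sD X).Kr (h i) g g')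
    (hg' : ∀ σ, g' σ ∈ U hm) : Ms hm N Z n h i g' := by
  have key : ∀ j ≤ n, i ≤ j → ∀ x ∈ (Z j).ch K 2,
      Tp.ev K (cur g') x = Tp.ev K (cur g') (x - h i (bd K x)) := fun j hj hij x hx => by
    have := k.curv (c := x) (by rw [sD_b2]; exact (c i hi).1 _ (((c i hi).2.2 j hj hij).1 x hx).2)
    rwa [sD_b2] at this
  refine ⟨hg', fun j hj hij x hx => ⟨_, sub_mem hx (((c i hi).2.2 j hj hij).1 x hx).1,
    (((c i hi).2.2 j hj hij).1 x hx).2, key j hj hij x hx⟩, fun j hj hij y => ?_⟩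
  rw [key j hj hij _ ((c j hj).2.1 y), ((c i hi).2.2 j hj hij).2, sub_self, map_zero]

/-- first scale -/
theorem Cf.init (hm : G.Id m) (hn : IsNilpotent m) (c : Cf N Z n h) (hi : i ≤ n)
    (hg : ∀ σ, g σ ∈ U hm) : ∃ g' : Cn G X, Ms hm N Z n h i g' ∧
      (∀ c ∈ N, Tp.ev K (Cs.dif g' g) c = 0) ∧
      ∀ J, G.Id J → CI (Z i) J (cur g) → ∀ σ, In J (Cs.dif g' g σ) := by
  obtain ⟨g', k1, k⟩ := (sD X).ku_ex hm hn (h i) hg
  exact ⟨g', c.ms hi k k1, fun y hy => k.zero ((c i hi).1 y hy),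
    fun J hJ f => k.dif_in1 hm hn hJ hg k1 f fun _ => (c i hi).2.1 _⟩

/-- **next scale**: perturb by `g1 - g ∈ M` and correct on `Z j` -/
theorem Ms.next {hm : G.Id m} (hn : IsNilpotent m) (c : Cf N Z n h) (s : Ms hm N Z n h i g) {j : ℕ}
    (hj : j ≤ n) (hij : i ≤ j) (hg1 : ∀ σ, g1 σ ∈ U hm) : ∃ g' : Cn G X, Ms hm N Z n h j g' ∧
      (∀ c ∈ N, Tp.ev K (Cs.dif g' g1) c = 0) ∧
      ∀ M J, G.Id M → G.Id J → (∀ σ, In M (Cs.dif g1 g σ)) → CI (Z j) J (cob K (Cs.dif g1 g)) →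
        ∀ σ, In (J ⊔ m * M) (Cs.dif g' g1 σ) := by
  obtain ⟨g', k1, k⟩ := (sD X).ku_ex hm hn (h j) hg1
  exact ⟨g', c.ms hj k k1, fun y hy => k.zero ((c j hj).1 y hy), fun M J hM hJ h1 h2 =>
    k.pert hm hn hM hJ s.mem k1 (fun _ => s.fix j hj hij _) h1 (fun _ => (c j hj).2.1 _)
      (by rw [sD_d1 K]; exact h2)⟩

/-- **multi-scale Kuranishi family**: start from `g`, add at scale `i + 1` a cochain `a i` with values in
`M i`, closed on `Z (i + 1)` -/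
theorem kur_ms (hm : G.Id m) (hn : IsNilpotent m) (N : Submodule K (Ch K 1 X))
    (hZ : ∀ i, (Z (i + 1)).Le (Z i)) (n : ℕ) (hg : ∀ σ, g σ ∈ U hm) {M : ℕ → Ideal O}
    (hM : ∀ i, G.Id (M i)) (hMa : Antitone M) (hMm : M 0 ≤ m) {a : ℕ → Co (Tw G) 1 X}
    (ha : ∀ i < n, ∀ σ, In (M i) (a i σ)) (hc : ∀ i < n, a i ∈ (Z (i + 1)).Z K (Tw G) 1) :
    ∃ gs : ℕ → Cn G X, (∀ i ≤ n, ∀ σ, gs i σ ∈ U hm) ∧ (∀ c ∈ N, Tp.ev K (Cs.dif (gs 0) g) c = 0) ∧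
      (∀ J, G.Id J → CI (Z 0) J (cur g) → ∀ σ, In J (Cs.dif (gs 0) g σ)) ∧
      (∀ i < n, (∀ c ∈ N, Tp.ev K (Cs.dif (gs (i + 1)) (gs i) - a i) c = 0) ∧
        ∀ σ, In (m * M i) (Cs.dif (gs (i + 1)) (gs i) σ - a i σ)) ∧
      (∀ i ≤ n, ∀ j ≤ n, i ≤ j → RC N (Z j) (cur (gs i))) ∧
      (∀ i ≤ n, ∀ σ, In (M i) (Cs.dif (gs n) (gs i) σ)) ∧
      RC N (Z n) (cur (gs n)) ∧ ∀ i ≤ n, RCm (M i) N (Z i) (cur (gs n)) := by
  obtain ⟨h, c⟩ := exists_cf N hZ n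
  obtain ⟨g0, s0, z0, d0⟩ := c.init hm hn (Nat.zero_le n) hg
  have step : ∀ i (g : Cn G X), ∃ g' : Cn G X, i < n → Ms hm N Z n h i g →
      Ms hm N Z n h (i + 1) g' ∧ (∀ c ∈ N, Tp.ev K (Cs.dif g' g - a i) c = 0) ∧
        ∀ σ, In (m * M i) (Cs.dif g' g σ - a i σ) := fun i g => by
    by_cases H : i < n ∧ Ms hm N Z n h i g
    · have h1 : ∀ σ, In m ((g σ).val - 1 + a i σ) := fun σ =>
        In.add (H.2.mem σ) ((ha i H.1 σ).mono ((hMa (Nat.zero_le i)).trans hMm))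
      let g1 : Cn G X := fun σ => un hm hn _ (h1 σ)
      have e1 : Cs.dif g1 g = a i := funext fun σ => by simp only [Cs.dif, g1, val_un]; abel
      obtain ⟨g', s', z', d'⟩ := H.2.next hn c (g1 := g1) H.1 i.le_succ fun σ => un_mem _ _ _ _ _ (h1 σ)
      have e2 : Cs.dif g' g - a i = Cs.dif g' g1 := funext fun σ => by
        rw [← e1]; simp [Cs.dif]
      refine ⟨g', fun _ _ => ⟨s', e2 ▸ z', fun σ => ?_⟩⟩
      have := d' (M i) ⊥ (hM i) G.id_bot (e1 ▸ ha i H.1)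
        (by rw [e1]; exact fun σ hσ => in_bot.2 (hc i H.1 σ hσ)) σ
      rwa [bot_sup_eq, ← e2] at this
    · exact ⟨g, fun h1 h2 => absurd ⟨h1, h2⟩ H⟩
  choose nx hnx using step
  let gs : ℕ → Cn G X := fun i => Nat.rec g0 nx i
  have hs : ∀ i ≤ n, Ms hm N Z n h i (gs i) := fun i hi => by
    induction i with
    | zero => exact s0
    | succ i ih => exact (hnx i _ hi (ih (by omega))).1
  have hd : ∀ j ≤ n, ∀ i ≤ j, ∀ σ, In (M i) (Cs.dif (gs j) (gs i) σ) := fun j hj i hi σ => by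
    induction j, hi using Nat.le_induction with
    | base => simpa [Cs.dif] using in_zero
    | succ j hij ih =>
      have h1 := In.add (((hnx j _ hj (hs j (by omega))).2.2 σ).mono Ideal.mul_le_right) (ha j hj σ)
      have := In.add (h1.mono (hMa hij)) (ih (by omega))
      convert this using 1
      simp only [Cs.dif]
      change _ = (gs (j + 1) σ).val - _ - _ + _ + _
      abel
  exact ⟨gs, fun i hi => (hs i hi).mem, z0, d0, fun i hi => (hnx i _ hi (hs i hi.le)).2,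
    fun i hi => (hs i hi).rc, fun i hi => hd n le_rfl i hi, (hs n le_rfl).rc n le_rfl le_rfl,
    fun i hi => (((hs i hi).rc i hi le_rfl).rcm _).congr
      (cur_sub_mem' (hM i) fun σ _ => hd n le_rfl i hi σ)⟩

end Crest.Agent.N255.Ku

end
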