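import Crest.Agent.N255.Ku.Ku
import Crest.Agent.N255.Cs.Sing

/-!
# Row 255 (helper21): Kuranishi families and gauge comparison on singular simplices
-/

set_option autoImplicit false
open Set

noncomputable section

namespace Crest.Agent.N255.Ku

open Cs Cs.Tw Tp

/-- Nakayama with a different ideal at every retreat -/
theorem nak_gen {A : Type*} [CommRing A] {m H : Ideal A} {N : ℕ} {I J : ℕ → Ideal A}
    (h : ∀ i < N, I i ≤ J i ⊔ m * I (i + 1)) (hJ : ∀ i < N, m ^ i * J i ≤ H)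
    (hN : m ^ N * I N ≤ H) : I 0 ≤ H := by
  have key : ∀ k ≤ N, I 0 ≤ H ⊔ m ^ k * I k := fun k hk => by
    induction k with
    | zero => simp
    | succ k ih =>
      refine (ih (by omega)).trans (sup_le le_sup_left ((Ideal.mul_mono_right (h k hk)).trans ?_))
      rw [Ideal.mul_sup, ← mul_assoc, ← pow_succ]
      exact sup_le_sup_right (hJ k hk) _
  exact (key N le_rfl).trans (sup_le le_rfl hN)

/-- the singular simplices of dimension at most three -/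
def sD (X : Type) [TopologicalSpace X] : Ds (Sx 0 X) (Sx 1 X) (Sx 2 X) (Sx 3 X) where
  s σ := e1 σ 0
  t σ := e1 σ 1
  a σ := e2 σ 0 1
  b σ := e2 σ 1 2
  c σ := e2 σ 0 2
  f0 σ := e3 σ 1 2 3
  f1 σ := e3 σ 0 2 3
  f2 σ := e3 σ 0 1 3
  f3 σ := e3 σ 0 1 2
  sa _ := by simp only [e1_sub]; rfl
  ta _ := by simp only [e1_sub]; rfl
  tb _ := by simp only [e1_sub]; rfl
  e01 _ := by simp only [e2_sub]; rfl
  e12 _ := by simp only [e2_sub]; rfl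
  e02 _ := by simp only [e2_sub]; rfl
  e23 _ := by simp only [e2_sub]; rfl
  e13 _ := by simp only [e2_sub]; rfl
  e03 _ := by simp only [e2_sub]; rfl

variable {X : Type} [TopologicalSpace X]

section gen

variable (k : Type) [CommRing k] {A : Type} [AddCommGroup A] [Module k A]

theorem cob_d0 (φ : Co A 0 X) (σ : Sx 1 X) : cob k φ σ = φ (e1 σ 1) - φ (e1 σ 0) := by
  have h0 : Tp.fc σ 0 = e1 σ 1 := sub_congr σ fun t => by fin_cases t; rfl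
  have h1 : Tp.fc σ 1 = e1 σ 0 := sub_congr σ fun t => by fin_cases t; rfl
  simp [cob_apply, Fin.sum_univ_two, h0, h1, sub_eq_add_neg]

theorem sD_d0 (φ : Co A 0 X) : (sD X).d0 φ = cob k φ := funext fun σ => (cob_d0 k φ σ).symm

theorem sD_d1 (φ : Co A 1 X) : (sD X).d1 φ = cob k φ := funext fun σ => (cob_d1 k φ σ).symm

theorem sD_d2 (φ : Co A 2 X) : (sD X).d2 φ = cob k φ := funext fun σ => (cob_d2 k φ σ).symm

theorem sD_b1 : (sD X).b1 k = bd k := LinearMap.ext fun c =>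
  ev_ext (fun σ => (Ku.ev_sg _ σ).trans ((cob_d0 k _ σ).symm.trans (cob_taut σ))) c

theorem sD_b2 : (sD X).b2 k = bd k := LinearMap.ext fun c =>
  ev_ext (fun σ => (Ku.ev_sg _ σ).trans ((cob_d1 k (fun τ => Tp.sg k τ) σ).symm.trans (cob_taut σ))) c

theorem sD_b3 : (sD X).b3 k = bd k := LinearMap.ext fun c =>
  ev_ext (fun σ => (Ku.ev_sg _ σ).trans ((cob_d2 k (fun τ => Tp.sg k τ) σ).symm.trans (cob_taut σ))) c

end gen

theorem sD_F {R : Type} [Ring R] (g : Sx 1 X → Rˣ) : (sD X).F g = cur g := rfl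

theorem sD_ga {R : Type} [Ring R] (γ : Sx 0 X → Rˣ) (g : Sx 1 X → Rˣ) :
    (sD X).ga γ g = gag γ g := rfl

theorem dif_eq {R : Type} [Ring R] (g' g : Sx 1 X → Rˣ) : Ku.dif g' g = Cs.dif g' g := rfl

variable {p : ℕ} [Fact p.Prime] {K O : Type} [CommRing O]

section ring

variable [CommRing K] [Algebra K O] {G : Gr (Gm p) K O} {m I J : Ideal O} {hm : G.Id m}
  {P P' : Sb X} {g g' : Cn G X} {n : ℕ}

/-- the graded ideal of the values on `P` -/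
abbrev vP (φ : Co (Tw G) n X) (P : Sb X) : Ideal O := vI φ (P.S n)

theorem vP_le (hI : G.Id I) {φ : Co (Tw G) n X} : vP φ P ≤ I ↔ CI P I φ := vI_le hI

theorem ci_vP (φ : Co (Tw G) n X) (P : Sb X) : CI P (vP φ P) φ := fun _ h => in_vI φ h

/-- one retreat for the curvature -/
theorem cur_step (hI : G.Id I) (h : CU P' hm g) (f : CI P' I (cur g))
    (hP : ∀ σ ∈ P.S 2, ∃ b ∈ P'.B K 2, In J (cur g σ - Tp.ev K (cur g) b)) :
    CI P (J ⊔ m * I) (cur g) := fun σ hσ => by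
  obtain ⟨_, ⟨c, hc, rfl⟩, h2⟩ := hP σ hσ
  rw [← sub_add_cancel (cur g σ) (Tp.ev K (cur g) (bd K c))]
  refine In.add (h2.mono le_sup_left) (In.mono ?_ le_sup_right)
  rw [ev_bd]
  exact (cob_cur_mem hI h f).ev hc

/-- one retreat for the difference of two connections -/
theorem dif_step (hI : G.Id I) (h : CU P' hm g) (h' : CU P' hm g') (f : CI P' I (Cs.dif g' g))
    (hF : CI P' J (cur g' - cur g))
    (hP : ∀ σ ∈ P.S 1, ∃ b ∈ P'.B K 1, In J (Cs.dif g' g σ - Tp.ev K (Cs.dif g' g) b)) :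
    CI P (J ⊔ m * I) (Cs.dif g' g) := fun σ hσ => by
  obtain ⟨_, ⟨c, hc, rfl⟩, h2⟩ := hP σ hσ
  rw [← sub_add_cancel (Cs.dif g' g σ) (Tp.ev K (Cs.dif g' g) (bd K c))]
  refine In.add (h2.mono le_sup_left) ?_
  rw [ev_bd]
  refine CI.ev (fun x hx => ?_) hc
  rw [← sub_sub_cancel ((cur g' - cur g) x) (cob K (Cs.dif g' g) x)]
  refine In.sub ((hF x hx).mono le_sup_left) (In.mono ?_ le_sup_right)
  have := (sD X).F_sub g' g x
  rw [sD_d1 K] at this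
  exact this ▸ In.add (in_rm hm hI (h'.gs hx 1 2) (f.df hx 0 1)) (in_lm hm hI (h.gs hx 0 1) (f.df hx 1 2))

/-- retreats along a chain of families -/
theorem ci_of_retreat {N : ℕ} (hm : G.Id m) (hN : m ^ N = ⊥) (hJ : G.Id J) {φ : Co (Tw G) n X}
    {P : ℕ → Sb X} (h : ∀ i < N, ∀ I, G.Id I → CI (P (i + 1)) I φ → CI (P i) (J ⊔ m * I) φ) :
    CI (P 0) J φ := in_of_retreat hm hN hJ (P := fun i => (P i).S n) h

theorem ci_of_step (hm : G.Id m) (hn : IsNilpotent m) (hJ : G.Id J) {φ : Co (Tw G) n X}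
    (h : ∀ I, G.Id I → CI P I φ → CI P (J ⊔ m * I) φ) : CI P J φ := by
  obtain ⟨N, hN⟩ := hn
  exact ci_of_retreat hm hN hJ (P := fun _ => P) fun _ _ => h

/-- the linear part of the curvature -/
theorem cur_lin (h : CU P hm g) {c : Ch K 2 X} (hc : c ∈ P.ch K 2) :
    In (m * m) (Tp.ev K (cur g) c - Tp.ev K (Cs.dif g 1) (bd K c)) := by
  rw [ev_bd, ← Tp.ev_sub]
  refine CI.ev (fun x hx => ?_) hc
  have := (sD X).F_sub g 1 x
  rw [sD_d1 K, Ds.F_one, sub_zero] at this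
  have h1 : In m (Ku.dif g 1 ((sD X).a x)) := h.gs hx 0 1
  change In _ ((sD X).F g x - cob K (Ku.dif g 1) x)
  rw [this]
  exact In.add (in_rm hm hm (h.gs hx 1 2) h1) (by simpa using in_zero)

theorem cur_glue_left {σ : Sx 2 X} (h : σ ∈ P.S 2) : cur (glue (P.S 1) g g') σ = cur g σ :=
  (sD X).F_glue_left (e2_mem P h (by decide)) (e2_mem P h (by decide)) (e2_mem P h (by decide))

theorem cur_glue_right (hJ : G.Id J) (h : CI (P.inf P') J (Cs.dif g g')) :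
    CI P' J (cur (glue (P.S 1) g g') - cur g') := fun _ hσ =>
  (sD X).F_glue_right hJ (fun h1 => h _ ⟨h1, e2_mem P' hσ (by decide)⟩)
    (fun h1 => h _ ⟨h1, e2_mem P' hσ (by decide)⟩) fun h1 => h _ ⟨h1, e2_mem P' hσ (by decide)⟩

theorem dif_glue_right (h : CI (P.inf P') J (Cs.dif g g')) :
    CI P' J (Cs.dif (glue (P.S 1) g g') g') := fun _ hσ => Ds.dif_glue fun h1 => h _ ⟨h1, hσ⟩

theorem glue_left {R : Type*} {a b : Sx n X → R} {σ : Sx n X} (h : σ ∈ P.S n) :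
    glue (P.S n) a b σ = a σ := if_pos h

/-- cut off outside `P` -/
theorem CU.cut {a : Sx n X → (Tw G)ˣ} (h : CU P hm a) (σ : Sx n X) : glue (P.S n) a 1 σ ∈ U hm := by
  unfold glue; split_ifs with h1; exacts [h σ h1, one_mem _]

end ring

variable [Field K] [Algebra K O] {G : Gr (Gm p) K O} {m I J : Ideal O} {g g' : Cn G X}

/-- the projection data of a flag `P 0 ≤ … ≤ P n` relative to `N` -/
structure Ctr {l : ℕ} (N : Submodule K (Ch K l X)) (P : ℕ → Sb X) (n : ℕ)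
    (h : Ch K l X →ₗ[K] Ch K (l + 1) X) : Prop where
  zero : ∀ y ∈ N, h y = 0
  mem : ∀ y, h y ∈ (P n).ch K (l + 1)
  inv : ∀ i ≤ n, ∀ c ∈ (P i).ch K (l + 1), h (bd K c) ∈ (P i).ch K (l + 1) ∧ bd K (c - h (bd K c)) ∈ N
  ctl : ∀ i ≤ n, ∀ j ≤ n, ((P i).ch K l ⊔ N) ⊓ ((P n).B K l ⊔ N) ≤ (P j).B K l ⊔ N →
    ∀ y ∈ (P i).ch K l, h y ∈ (P j).ch K (l + 1)

theorem exists_ctr {l : ℕ} (N : Submodule K (Ch K l X)) {P : ℕ → Sb X}
    (hP : ∀ i, (P i).Le (P (i + 1))) (n : ℕ) : ∃ h, Ctr N P n h := by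
  obtain ⟨h, h1, h2, h3, -, -, h6⟩ := exists_h (bd K) N (P := fun i => (P i).ch K (l + 1))
    (monotone_nat_of_le_succ fun i => Sb.ch_mono (hP i)) (A := fun i => (P i).ch K l)
    (monotone_nat_of_le_succ fun i => Sb.ch_mono (hP i)) n
  exact ⟨h, h1, h2, h3, h6⟩

variable {N : Submodule K (Ch K 1 X)} {N0 : Submodule K (Ch K 0 X)} {P : ℕ → Sb X} {n : ℕ}
  {h : Ch K 1 X →ₗ[K] Ch K 2 X} {h0 : Ch K 0 X →ₗ[K] Ch K 1 X} {γ : Sx 0 X → (Tw G)ˣ}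

theorem Ctr.cur (c : Ctr N P n h) (k : (sD X).Kr h g g') {i : ℕ} (hi : i ≤ n) {x : Ch K 2 X}
    (hx : x ∈ (P i).ch K 2) : Tp.ev K (cur g') x = Tp.ev K (cur g') (x - h (bd K x)) := by
  have := k.curv (c := x) (by rw [sD_b2]; exact c.zero _ (c.inv i hi x hx).2)
  rwa [sD_b2] at this

theorem Ctr.per (c : Ctr N0 P n h0) (k : (sD X).Gf h0 g g' γ) {i : ℕ} (hi : i ≤ n) {x : Ch K 1 X}
    (hx : x ∈ (P i).ch K 1) :
    Tp.ev K (Cs.dif (gag γ g') g) x = Tp.ev K (Cs.dif (gag γ g') g) (x - h0 (bd K x)) := by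
  have := k.per (c := x) (by rw [sD_b1]; exact c.zero _ (c.inv i hi x hx).2)
  rwa [sD_b1] at this

/-- the values of `φ` on `P` are values on cycles of `P` relative to `N` -/
def RC {l : ℕ} (N : Submodule K (Ch K l X)) (P : Sb X) (φ : Co (Tw G) (l + 1) X) : Prop :=
  ∀ c ∈ P.ch K (l + 1), ∃ c' ∈ P.ch K (l + 1), bd K c' ∈ N ∧ Tp.ev K φ c = Tp.ev K φ c'

theorem RC.step {l : ℕ} {N : Submodule K (Ch K l X)} {Q Q' : Sb X} {φ : Co (Tw G) (l + 1) X}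
    (h : RC N Q φ) {Z : Submodule K (Ch K (l + 1) X)} (hZ : ∀ z ∈ Z, In J (Tp.ev K φ z))
    (hH : ∀ c ∈ Q.ch K (l + 1), bd K c ∈ N → c ∈ Z ⊔ Q'.B K (l + 1)) :
    ∀ σ ∈ Q.S (l + 1), ∃ b ∈ Q'.B K (l + 1), In J (φ σ - Tp.ev K φ b) := fun σ hσ => by
  obtain ⟨c, hc, h1, h2⟩ := h _ (Sb.sg_mem hσ)
  obtain ⟨z, hz, b, hb, rfl⟩ := Submodule.mem_sup.1 (hH c hc h1)
  refine ⟨b, hb, ?_⟩
  rw [← Tp.ev_sg (k := K) φ σ, h2, map_add, add_sub_cancel_right]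
  exact hZ z hz

theorem RC.map {l : ℕ} {N : Submodule K (Ch K l X)} {Q : Sb X} {φ : Co (Tw G) (l + 1) X}
    (h : RC N Q φ) {O' : Type} [CommRing O'] [Algebra K O'] {G' : Gr (Gm p) K O'} {ψ : O →ₐ[K] O'}
    (hψ : G.Hom G' ψ) {φ' : Co (Tw G') (l + 1) X} (e : ∀ σ, φ' σ = Tw.map hψ (φ σ)) : RC N Q φ' :=
  fun c hc => by
    obtain ⟨c', h1, h2, h3⟩ := h c hc
    obtain rfl : φ' = fun σ => Tw.map hψ (φ σ) := funext e
    exact ⟨c', h1, h2, (ev_um hψ φ c).trans ((congrArg _ h3).trans (ev_um hψ φ c').symm)⟩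

/-- **Kuranishi** (relative to `N`, adapted to a flag) -/
theorem kur (hm : G.Id m) (hn : IsNilpotent m) (N : Submodule K (Ch K 1 X))
    (hP : ∀ i, (P i).Le (P (i + 1))) (n : ℕ) (hg : ∀ σ, g σ ∈ U hm) :
    ∃ g' : Cn G X, (∀ σ, g' σ ∈ U hm) ∧ (∀ c ∈ N, Tp.ev K (Cs.dif g' g) c = 0) ∧
      (∀ J, G.Id J → CI (P n) J (cur g) → ∀ σ, In J (Cs.dif g' g σ)) ∧
      ∀ i ≤ n, RC N (P i) (cur g') := by
  obtain ⟨h, c⟩ := exists_ctr N hP n
  obtain ⟨g', h1, k⟩ := (sD X).ku_ex hm hn h hg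
  exact ⟨g', h1, fun y hy => k.zero (c.zero y hy),
    fun J hJ f => k.dif_in1 hm hn hJ hg h1 f fun _ => c.mem _, fun i hi x hx =>
      ⟨_, sub_mem hx (c.inv i hi x hx).1, (c.inv i hi x hx).2, c.cur k hi hx⟩⟩

/-- **gauge fixing** (relative to `N0`, adapted to a flag) -/
theorem gfix (hm : G.Id m) (hn : IsNilpotent m) (N0 : Submodule K (Ch K 0 X))
    (hP : ∀ i, (P i).Le (P (i + 1))) (n : ℕ) (hg : ∀ σ, g σ ∈ U hm) (hg' : ∀ σ, g' σ ∈ U hm) :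
    ∃ γ : Sx 0 X → (Tw G)ˣ, (∀ v, γ v ∈ U hm) ∧ (∀ v, Tp.sg K v ∈ N0 → γ v = 1) ∧
      (∀ J, G.Id J → CI (P n) J (Cs.dif g' g) → ∀ v, In J ((γ v).val - 1)) ∧
      ∀ i ≤ n, RC N0 (P i) (Cs.dif (gag γ g') g) := by
  obtain ⟨h, c⟩ := exists_ctr N0 hP n
  obtain ⟨γ, h1, k⟩ := (sD X).gf_ex hm hn h hg hg'
  obtain ⟨M, hM⟩ := hn
  exact ⟨γ, h1, fun v hv => k.eq (c.zero _ hv), fun J hJ f v =>
    k.dif_in hm hM hJ hg' h1 (B := fun _ => univ) (A := fun _ => (P n).S 1)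
      (fun _ _ e he => ⟨trivial, trivial, f e he⟩) (fun _ _ _ _ => c.mem _) v trivial,
    fun i hi x hx => ⟨_, sub_mem hx (c.inv i hi x hx).1, (c.inv i hi x hx).2, c.per k hi hx⟩⟩

/-- one retreat: the curvature on `Q` is generated by its values on `Z` -/
theorem RC.cur {hm : G.Id m} {Q Q' : Sb X} (r : RC N Q (cur g)) (hI : G.Id I) (h : CU Q' hm g)
    (f : CI Q' I (cur g)) {Z : Submodule K (Ch K 2 X)} (hZ : ∀ z ∈ Z, In J (Tp.ev K (cur g) z))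
    (hH : ∀ c ∈ Q.ch K 2, bd K c ∈ N → c ∈ Z ⊔ Q'.B K 2) : CI Q (J ⊔ m * I) (cur g) :=
  cur_step hI h f (r.step hZ hH)

/-- no retreat -/
theorem RC.cur1 {hm : G.Id m} (hn : IsNilpotent m) {Q : Sb X} (r : RC N Q (Cs.cur g)) (hJ : G.Id J)
    (h : CU Q hm g) {Z : Submodule K (Ch K 2 X)} (hZ : ∀ z ∈ Z, In J (Tp.ev K (Cs.cur g) z))
    (hH : ∀ c ∈ Q.ch K 2, bd K c ∈ N → c ∈ Z ⊔ Q.B K 2) : CI Q J (Cs.cur g) :=
  ci_of_step hm hn hJ fun _ hI f => r.cur hI h f hZ hH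

/-- one retreat: the difference on `Q` is generated by its periods on `Z` and the curvatures -/
theorem RC.dif {hm : G.Id m} {Q Q' : Sb X} (r : RC N0 Q (Cs.dif g' g)) (hI : G.Id I)
    (h : CU Q' hm g) (h' : CU Q' hm g') (f : CI Q' I (Cs.dif g' g))
    (hF : CI Q' J (Cs.cur g' - Cs.cur g)) {Z : Submodule K (Ch K 1 X)}
    (hZ : ∀ z ∈ Z, In J (Tp.ev K (Cs.dif g' g) z))
    (hH : ∀ c ∈ Q.ch K 1, bd K c ∈ N0 → c ∈ Z ⊔ Q'.B K 1) : CI Q (J ⊔ m * I) (Cs.dif g' g) :=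
  dif_step hI h h' f hF (r.step hZ hH)

/-- no retreat -/
theorem RC.dif1 {hm : G.Id m} (hn : IsNilpotent m) {Q : Sb X} (r : RC N0 Q (Cs.dif g' g))
    (hJ : G.Id J) (h : CU Q hm g) (h' : CU Q hm g') (hF : CI Q J (Cs.cur g' - Cs.cur g))
    {Z : Submodule K (Ch K 1 X)} (hZ : ∀ z ∈ Z, In J (Tp.ev K (Cs.dif g' g) z))
    (hH : ∀ c ∈ Q.ch K 1, bd K c ∈ N0 → c ∈ Z ⊔ Q.B K 1) : CI Q J (Cs.dif g' g) :=
  ci_of_step hm hn hJ fun _ hI f => r.dif hI h h' f hF hZ hH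

end Crest.Agent.N255.Ku

end
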