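import Crest.Agent.N255.Ku.Msc

/-!
# Row 255 (helper21): the wall facts (W1), (W2)
-/

set_option autoImplicit false
open Set

noncomputable section

namespace Crest.Agent.N255.Ku

open Tg

section alg

variable {A : Type*} [CommRing A] {ι : Type*}

/-- multi-scale detection data on a wall; `F k = N0 + k * th` -/
structure WD (m T : Ideal A) (w I : ℕ → Ideal A) (E D : ι → A) (sc : ι → ℕ) (n N0 th c : ℕ) :
    Prop where
  nil : IsNilpotent m
  anti : Antitone w
  mul : ∀ a, m * w a ≤ w (N0 + a)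
  th0 : 0 < th
  th1 : th ≤ N0
  cth : c * th ≤ N0
  le : ∀ j, sc j ≤ n + c
  i0 : I 0 ≤ sp E ⊔ T ⊔ w (N0 + th)
  step : ∀ k < n, I (k + 1) ≤ sp E ⊔ T ⊔ w (N0 + (k + 2) * th) ⊔ m * I k
  der : ∀ j, D j - E j ∈ m * I n ⊔ w (N0 + n * th + 1)
  die : ∀ j, c ≤ sc j → E j ∈ m * I (sc j - c) ⊔ m * T ⊔ w (N0 + sc j * th + 1)
  mac : ∀ j, sc j < c → E j ∈ m * T ⊔ w (N0 + sc j * th + 1)

namespace WD

variable {m T : Ideal A} {w I : ℕ → Ideal A} {E D : ι → A} {sc : ι → ℕ} {n N0 th c : ℕ}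
  (h : WD m T w I E D sc n N0 th c)
include h

theorem mul' {a b : ℕ} (hb : b ≤ N0 + a) : m * w a ≤ w b := (h.mul a).trans (h.anti hb)

theorem I_le {k : ℕ} (hk : k ≤ n) : I k ≤ sp E ⊔ T ⊔ w (N0 + (k + 1) * th) := by
  induction k with
  | zero => simpa using h.i0
  | succ k ih =>
    refine (h.step k hk).trans (sup_le le_rfl ((Ideal.mul_mono_right (ih (by omega))).trans ?_))
    rw [Ideal.mul_sup]
    exact sup_le_sup Ideal.mul_le_right (h.mul' (by have := h.th1; nlinarith))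

/-- (W1) -/
theorem w1 : I n ≤ sp D ⊔ T ⊔ w (N0 + n * th + 1) := by
  refine nak h.nil ((h.I_le le_rfl).trans (sup_le (sup_le (sp_le.2 fun j => ?_) ?_) ?_))
  · rw [← sub_sub_cancel (D j) (E j)]
    exact sub_mem (Ideal.mem_sup_left (Ideal.mem_sup_left (Ideal.mem_sup_left (mem_sp D j))))
      (SetLike.le_def.1 (sup_le le_sup_right (le_sup_right.trans le_sup_left)) (h.der j))
  · exact (le_sup_right.trans le_sup_left).trans le_sup_left
  · exact ((h.anti (by have := h.th0; nlinarith)).trans le_sup_right).trans le_sup_left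

omit h in
theorem sp_split (E : ι → A) (sc : ι → ℕ) (k : ℕ) :
    sp E ≤ Ideal.span (E '' {j | sc j < k}) ⊔ Ideal.span (E '' {j | k ≤ sc j}) :=
  sp_le.2 fun j => (lt_or_ge (sc j) k).elim
    (fun h => Ideal.mem_sup_left (Ideal.subset_span ⟨j, h, rfl⟩))
    fun h => Ideal.mem_sup_right (Ideal.subset_span ⟨j, h, rfl⟩)

theorem deep (k : ℕ) : Ideal.span (E '' {j | k ≤ sc j}) ≤
    m * (Ideal.span (E '' {j | sc j < k}) ⊔ T) ⊔ w (N0 + k * th + 1) := by
  refine nak h.nil (Ideal.span_le.2 ?_)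
  rintro _ ⟨j, hj, rfl⟩
  have hj' : k * th ≤ sc j * th := Nat.mul_le_mul_right _ hj
  have l1 : m * T ⊔ w (N0 + sc j * th + 1) ≤
      m * (Ideal.span (E '' {j | sc j < k}) ⊔ T) ⊔ w (N0 + k * th + 1) :=
    sup_le_sup (Ideal.mul_mono_right le_sup_right) (h.anti (by omega))
  rcases lt_or_ge (sc j) c with hc | hc
  · exact Ideal.mem_sup_left (l1 (h.mac j hc))
  have l2 := (Ideal.mul_mono_right (I := m) ((h.I_le (k := sc j - c) (by have := h.le j; omega)).trans
    (sup_le_sup_right (sup_le_sup_right (sp_split E sc k) _) _)))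
  have := h.die j hc
  rw [sup_assoc] at this
  refine (sup_le (l2.trans ?_) (l1.trans le_sup_left) : _ ≤ _) this
  rw [sup_right_comm (Ideal.span _), Ideal.mul_sup, Ideal.mul_sup, sup_right_comm]
  refine sup_le_sup_right (sup_le_sup_left (h.mul' ?_) _) _
  obtain ⟨d, hd⟩ := Nat.exists_eq_add_of_le hc
  have := h.cth
  have := h.th0
  rw [hd, Nat.add_sub_cancel_left]
  rw [hd] at hj'
  nlinarith

theorem mE (k : ℕ) : m * (sp E ⊔ T) ≤
    m * (Ideal.span (E '' {j | sc j < k}) ⊔ T) ⊔ w (N0 + k * th + 1) := by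
  refine (Ideal.mul_mono_right (sup_le_sup_right (sp_split E sc k) _)).trans ?_
  rw [sup_right_comm (Ideal.span _), Ideal.mul_sup]
  exact sup_le le_sup_left (Ideal.mul_le_right.trans (h.deep k))

theorem der' {k : ℕ} (hk : k ≤ n) (j : ι) :
    D j - E j ∈ m * (Ideal.span (E '' {j | sc j < k}) ⊔ T) ⊔ w (N0 + k * th + 1) := by
  have hk' : k * th ≤ n * th := Nat.mul_le_mul_right _ hk
  refine (sup_le ((Ideal.mul_mono_right (h.I_le le_rfl)).trans ?_)
    ((h.anti (by omega)).trans le_sup_right) : _ ≤ _) (h.der j)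
  rw [Ideal.mul_sup]
  exact sup_le (h.mE k) ((h.mul' (by have := h.th0; nlinarith)).trans le_sup_right)

theorem low {k : ℕ} (hk : k ≤ n) : Ideal.span (E '' {j | sc j < k}) ⊔ T ≤
    Ideal.span (D '' {j | sc j < k}) ⊔ T ⊔ w (N0 + k * th + 1) := by
  refine nak h.nil (sup_le (Ideal.span_le.2 ?_) ((le_sup_right.trans le_sup_left).trans le_sup_left))
  rintro _ ⟨j, hj, rfl⟩
  rw [SetLike.mem_coe, ← sub_sub_cancel (D j) (E j)]
  exact sub_mem (Ideal.mem_sup_left (Ideal.mem_sup_left (Ideal.mem_sup_left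
    (Ideal.subset_span ⟨j, hj, rfl⟩))))
    (SetLike.le_def.1 (sup_le le_sup_right (le_sup_right.trans le_sup_left)) (h.der' hk j))

/-- (W2), for all variables of scale at least `k` -/
theorem w2' {k : ℕ} (hk : k ≤ n) {l : ι} (hl : k ≤ sc l) :
    D l ∈ m * (Ideal.span (D '' {j | sc j < k}) ⊔ T) ⊔ w (N0 + k * th + 1) := by
  have h1 := add_mem (h.der' hk l) (h.deep k (Ideal.subset_span ⟨l, hl, rfl⟩))
  rw [sub_add_cancel] at h1
  refine (sup_le ((Ideal.mul_mono_right (h.low hk)).trans ?_) le_sup_right : _ ≤ _) h1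
  rw [Ideal.mul_sup]
  exact sup_le_sup_left Ideal.mul_le_right _

/-- (W2) -/
theorem w2 {l : ι} (hl : sc l ≤ n) :
    D l ∈ m * (Ideal.span (D '' {j | sc j < sc l}) ⊔ T) ⊔ w (N0 + sc l * th + 1) := h.w2' hl le_rfl

end WD

end alg

open Cs Cs.Tw Tp

variable {p : ℕ} [Fact p.Prime] {K O : Type} [CommRing O] [Field K] [Algebra K O]
  {G : Gr (Gm p) K O} {m I J M T : Ideal O} {X : Type} [TopologicalSpace X] {g : Cn G X}
  {hm : G.Id m} {N : Submodule K (Ch K 1 X)} {Q Q' Fa : Sb X} {ι : Type*}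

/-- the field `step`: relative cycles of `Q` are combinations of the `e j`, boundaries and far chains -/
theorem RCm.det (r : RCm M N Q (Cs.cur g)) (hI : G.Id I) (h : CU Q' hm g) (f : CI Q' I (Cs.cur g))
    {e : ι → Ch K 2 X} (he : ∀ j, In J (Tp.ev K (Cs.cur g) (e j))) (hT : CI Fa T (Cs.cur g))
    (hH : ∀ c ∈ Q.ch K 2, bd K c ∈ N → c ∈ Submodule.span K (range e) ⊔ Q'.B K 2 ⊔ Fa.ch K 2) :
    CI Q (J ⊔ T ⊔ M ⊔ m * I) (Cs.cur g) := by
  refine (r.mono le_sup_right).cur hI h f (Z := Submodule.span K (range e) ⊔ Fa.ch K 2)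
    (fun z hz => ?_) fun c hc h1 => by rw [sup_right_comm]; exact hH c hc h1
  obtain ⟨a, ha, b, hb, rfl⟩ := Submodule.mem_sup.1 hz
  rw [map_add]
  refine In.mono (In.add (In.mono ?_ le_sup_left) ((hT.ev hb).mono le_sup_right)) le_sup_left
  exact (Submodule.span_le (p := (inS G J).comap (Tp.ev K (Cs.cur g)))).2 (range_subset_iff.2 he) ha

/-- the field `die` -/
theorem cur_die (hI : G.Id I) (h : CU Q hm g) (f : CI Q I (Cs.cur g)) {c : Ch K 2 X}
    (hc : c ∈ Q.B K 2) : In (m * I) (Tp.ev K (Cs.cur g) c) := by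
  obtain ⟨b, hb, rfl⟩ := hc
  rw [ev_bd]
  exact (cob_cur_mem hI h f).ev hb

/-- all components of finitely many elements -/
theorem in_sp_pr (x : ι → Tw G) (u : ι × Gm p → ℤ) (hu : ∀ q, u q * u q = 1) (s : Gm p ≃ Gm p)
    (j : ι) : In (sp fun q : ι × Gm p => u q • G.pr (s q.2) (o G (x q.1))) (x j) :=
  Gr.mem_of_pr fun a => by
    obtain ⟨b, rfl⟩ := s.surjective a
    have := zsmul_mem (mem_sp (fun q : ι × Gm p => u q • G.pr (s q.2) (o G (x q.1))) (j, b)) (u (j, b))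
    rwa [smul_smul, hu, one_smul] at this

end Crest.Agent.N255.Ku

end
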